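import Mathlib

/-!
# P271, equality case: powers of the maximal ideal of a point and Taylor polynomials
-/

open MvPolynomial

namespace Vale.Agent.P271.Eq

variable {R : Type*} [CommRing R] [Algebra ℂ R] {p : ℕ}

/-- The ideal of the point `φ`. -/
def pI (φ : R →ₐ[ℂ] ℂ) : Ideal R := RingHom.ker φ

theorem mem_pI {φ : R →ₐ[ℂ] ℂ} {s : R} : s ∈ pI φ ↔ φ s = 0 := Iff.rfl

/-- `X` is a system of regular parameters at `φ` (the `X j - φ (X j)` generate the maximal ideal
locally). -/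
def Params (φ : R →ₐ[ℂ] ℂ) (X : Fin p → R) : Prop :=
  ∀ s, φ s = 0 → ∃ h, φ h ≠ 0 ∧
    h * s ∈ Ideal.span (Set.range fun j => X j - algebraMap ℂ R (φ (X j)))

/-- The centred coordinates. -/
def cX (φ : R →ₐ[ℂ] ℂ) (X : Fin p → R) (j : Fin p) : R := X j - algebraMap ℂ R (φ (X j))

theorem φ_cX (φ : R →ₐ[ℂ] ℂ) (X : Fin p → R) (j : Fin p) : φ (cX φ X j) = 0 := by
  simp [cX]

theorem φ_sub (φ : R →ₐ[ℂ] ℂ) (s : R) : φ (s - algebraMap ℂ R (φ s)) = 0 := by
  simp

/-- Elements of the maximal ideal are linear in the coordinates modulo the square. -/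
theorem exists_linear {φ : R →ₐ[ℂ] ℂ} {X : Fin p → R} (hX : Params φ X) {s : R} (hs : φ s = 0) :
    ∃ G : MvPolynomial (Fin p) ℂ, G.IsHomogeneous 1 ∧ s - aeval (cX φ X) G ∈ pI φ ^ 2 := by
  obtain ⟨h, hh, hmem⟩ := hX s hs
  obtain ⟨c, hc⟩ := Ideal.mem_span_range_iff_exists_fun.1 hmem
  refine ⟨∑ j, C ((φ h)⁻¹ * φ (c j)) * MvPolynomial.X j, ?_, ?_⟩
  · refine IsHomogeneous.sum _ _ _ fun j _ => ?_
    have := (isHomogeneous_C (Fin p) ((φ h)⁻¹ * φ (c j))).mul (isHomogeneous_X ℂ j)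
    rwa [zero_add] at this
  · have h1 : aeval (cX φ X) (∑ j, C ((φ h)⁻¹ * φ (c j)) * MvPolynomial.X j) =
        ∑ j, algebraMap ℂ R ((φ h)⁻¹ * φ (c j)) * cX φ X j := by
      rw [map_sum]
      refine Finset.sum_congr rfl fun j _ => ?_
      rw [map_mul, aeval_X, ← algebraMap_eq, AlgHom.commutes]
    rw [h1]
    have h2 : s = algebraMap ℂ R (φ h)⁻¹ * (algebraMap ℂ R (φ h) * s) := by
      rw [← mul_assoc, ← map_mul, inv_mul_cancel₀ hh, map_one, one_mul]
    have h3 : s - ∑ j, algebraMap ℂ R ((φ h)⁻¹ * φ (c j)) * cX φ X j =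
        algebraMap ℂ R (φ h)⁻¹ * ((algebraMap ℂ R (φ h) - h) * s +
          ∑ j, (c j - algebraMap ℂ R (φ (c j))) * cX φ X j) := by
      have h4 : ∑ j, (c j - algebraMap ℂ R (φ (c j))) * cX φ X j =
          h * s - ∑ j, algebraMap ℂ R (φ (c j)) * cX φ X j := by
        simp only [sub_mul, Finset.sum_sub_distrib]
        congr 1
      rw [h4]
      have h5 : ∑ j, algebraMap ℂ R ((φ h)⁻¹ * φ (c j)) * cX φ X j =
          algebraMap ℂ R (φ h)⁻¹ * ∑ j, algebraMap ℂ R (φ (c j)) * cX φ X j := by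
        rw [Finset.mul_sum]
        refine Finset.sum_congr rfl fun j _ => ?_
        rw [map_mul, mul_assoc]
      rw [h5]
      conv_lhs => rw [h2]
      ring
    rw [h3]
    refine Ideal.mul_mem_left _ _ (Ideal.add_mem _ ?_ ?_)
    · rw [pow_two]
      refine Ideal.mul_mem_mul ?_ hs
      rw [mem_pI]
      simp
    · refine Ideal.sum_mem _ fun j _ => ?_
      rw [pow_two]
      exact Ideal.mul_mem_mul (φ_sub φ _) (φ_cX φ X j)

theorem aeval_cX_mem {φ : R →ₐ[ℂ] ℂ} {X : Fin p → R} {G : MvPolynomial (Fin p) ℂ} {k : ℕ}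
    (hG : G.IsHomogeneous k) : aeval (cX φ X) G ∈ pI φ ^ k := by
  classical
  rw [G.as_sum, map_sum]
  refine Ideal.sum_mem _ fun d hd => ?_
  rw [aeval_monomial]
  refine Ideal.mul_mem_left _ _ ?_
  have h1 : Finsupp.degree d = k := by
    rw [Finsupp.degree_eq_weight_one]
    exact hG (mem_support_iff.1 hd)
  rw [← h1, Finsupp.degree_eq_sum, Finsupp.prod_fintype _ _ (by simp),
    ← Finset.prod_pow_eq_pow_sum]
  exact Ideal.prod_mem_prod fun j _ => Ideal.pow_mem_pow (φ_cX φ X j) _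

/-- Taylor polynomial of degree `k` modulo the next power. -/
theorem exists_form {φ : R →ₐ[ℂ] ℂ} {X : Fin p → R} (hX : Params φ X) (k : ℕ) :
    ∀ s ∈ pI φ ^ k, ∃ G : MvPolynomial (Fin p) ℂ, G.IsHomogeneous k ∧
      s - aeval (cX φ X) G ∈ pI φ ^ (k + 1) := by
  induction k with
  | zero =>
    intro s _
    refine ⟨C (φ s), isHomogeneous_C _ _, ?_⟩
    rw [zero_add, pow_one, ← algebraMap_eq, AlgHom.commutes]
    exact φ_sub φ s
  | succ k ih =>
    intro s hs
    rw [pow_succ] at hs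
    refine Submodule.mul_induction_on hs ?_ ?_
    · intro a ha b hb
      obtain ⟨G, hG, hG'⟩ := ih a ha
      obtain ⟨L, hL, hL'⟩ := exists_linear hX (s := b) hb
      refine ⟨G * L, hG.mul hL, ?_⟩
      have h1 : a * b - aeval (cX φ X) (G * L) =
          (a - aeval (cX φ X) G) * b + aeval (cX φ X) G * (b - aeval (cX φ X) L) := by
        rw [map_mul]
        ring
      rw [h1]
      refine Ideal.add_mem _ ?_ ?_
      · rw [pow_succ (pI φ) (k + 1)]
        exact Ideal.mul_mem_mul hG' hb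
      · have : k + 1 + 1 = k + 2 := rfl
        rw [this, pow_add]
        exact Ideal.mul_mem_mul (aeval_cX_mem hG) hL'
    · intro a b ⟨G, hG, hG'⟩ ⟨L, hL, hL'⟩
      refine ⟨G + L, hG.add hL, ?_⟩
      have h1 : a + b - aeval (cX φ X) (G + L) =
          (a - aeval (cX φ X) G) + (b - aeval (cX φ X) L) := by
        rw [map_add]
        ring
      rw [h1]
      exact Ideal.add_mem _ hG' hL'

/-- Taylor polynomial of degree `< k`. -/
theorem exists_taylor_alg {φ : R →ₐ[ℂ] ℂ} {X : Fin p → R} (hX : Params φ X) (k : ℕ) (s : R) :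
    ∃ F : MvPolynomial (Fin p) ℂ, (∀ d : Fin p →₀ ℕ, k ≤ d.degree → coeff d F = 0) ∧
      s - aeval (cX φ X) F ∈ pI φ ^ k := by
  induction k with
  | zero => exact ⟨0, by simp, by simp⟩
  | succ k ih =>
    obtain ⟨F, hF, hF'⟩ := ih
    obtain ⟨G, hG, hG'⟩ := exists_form hX k _ hF'
    refine ⟨F + G, ?_, ?_⟩
    · intro d hd
      rw [coeff_add, hF d (by omega), zero_add]
      refine hG.coeff_eq_zero ?_
      omega
    · have h1 : s - aeval (cX φ X) (F + G) = (s - aeval (cX φ X) F) - aeval (cX φ X) G := by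
        rw [map_add]
        ring
      rw [h1]
      exact hG'

end Vale.Agent.P271.Eq
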