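import Mathlib

/-!
# P271, equality case: forms of degree `k` vanishing to order `≥ a` at a point `ξ ≠ 0`

The space of forms of degree `k` in `n` variables which vanish to order `≥ a` at `ξ ≠ 0` has
codimension at least the number of monomials of degree `a - 1` in `n` variables.
-/

open MvPolynomial

namespace Vale.Agent.P271.Eq

variable {n : ℕ} {K : Type*} [Field K]

/-- Translation `p(X) ↦ p(X + ξ)`. -/
noncomputable def trans (ξ : Fin n → K) : MvPolynomial (Fin n) K →ₐ[K] MvPolynomial (Fin n) K :=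
  aeval fun i => X i + C (ξ i)

theorem trans_X (ξ : Fin n → K) (i : Fin n) : trans ξ (X i) = X i + C (ξ i) := by
  simp [trans]

theorem trans_neg_trans (ξ : Fin n → K) (p : MvPolynomial (Fin n) K) :
    trans (-ξ) (trans ξ p) = p := by
  have h : (trans (-ξ)).comp (trans ξ) = AlgHom.id K _ := by
    ext i
    simp [trans]
  exact congrArg (fun f => f p) h

theorem trans_injective (ξ : Fin n → K) : Function.Injective (trans ξ) :=
  Function.LeftInverse.injective (trans_neg_trans ξ)

theorem totalDegree_trans_le (ξ : Fin n → K) (p : MvPolynomial (Fin n) K) :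
    (trans ξ p).totalDegree ≤ p.totalDegree := by
  classical
  have h : trans ξ p = ∑ d ∈ p.support, C (coeff d p) * ∏ i, (X i + C (ξ i)) ^ d i := by
    conv_lhs => rw [p.as_sum]
    rw [map_sum]
    refine Finset.sum_congr rfl fun d _ => ?_
    rw [trans, aeval_monomial, Finsupp.prod_fintype _ _ (by simp)]
    rfl
  rw [h]
  refine (totalDegree_finsetSum _ _).trans (Finset.sup_le fun d hd => ?_)
  refine (totalDegree_mul _ _).trans ?_
  rw [totalDegree_C, zero_add]
  refine (totalDegree_finsetProd _ _).trans ?_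
  refine le_trans ?_ (le_totalDegree hd)
  rw [Finsupp.sum_fintype _ _ (by simp)]
  refine Finset.sum_le_sum fun i _ => ?_
  refine (totalDegree_pow _ _).trans ?_
  have h1 : (X i + C (ξ i) : MvPolynomial (Fin n) K).totalDegree ≤ 1 := by
    refine (totalDegree_add _ _).trans ?_
    simp [totalDegree_X]
  calc d i * (X i + C (ξ i) : MvPolynomial (Fin n) K).totalDegree ≤ d i * 1 :=
        Nat.mul_le_mul_left _ h1
    _ = d i := mul_one _

/-- The polynomials vanishing to order `≥ a` at `ξ`. -/
noncomputable def vanAt (ξ : Fin n → K) (a : ℕ) : Submodule K (MvPolynomial (Fin n) K) where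
  carrier := {p | ∀ d : Fin n →₀ ℕ, d.degree < a → coeff d (trans ξ p) = 0}
  add_mem' := by
    intro p q hp hq d hd
    rw [map_add, coeff_add, hp d hd, hq d hd, add_zero]
  zero_mem' := by
    intro d _
    simp
  smul_mem' := by
    intro c p hp d hd
    rw [map_smul, coeff_smul, hp d hd, smul_zero]

theorem mem_vanAt {ξ : Fin n → K} {a : ℕ} {p : MvPolynomial (Fin n) K} :
    p ∈ vanAt ξ a ↔ ∀ d : Fin n →₀ ℕ, d.degree < a → coeff d (trans ξ p) = 0 := Iff.rfl

theorem mem_vanAt_order {ξ : Fin n → K} {a : ℕ} {p : MvPolynomial (Fin n) K} :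
    p ∈ vanAt ξ a ↔ (a : ℕ∞) ≤ ((trans ξ p : MvPolynomial (Fin n) K) : MvPowerSeries (Fin n) K).order := by
  rw [mem_vanAt]
  constructor
  · intro h
    refine MvPowerSeries.le_order fun d hd => ?_
    rw [coeff_coe]
    exact h d (by exact_mod_cast hd)
  · intro h d hd
    rw [← coeff_coe]
    exact MvPowerSeries.coeff_of_lt_order (lt_of_lt_of_le (by exact_mod_cast hd) h)

/-- The number of monomials of degree `k` in `n` variables. -/
def mono (n k : ℕ) : ℕ := n.multichoose k

theorem card_degree (n k : ℕ) :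
    Nat.card {d : Fin n →₀ ℕ | Finsupp.degree d = k} = mono n k := by
  classical
  have h : {d : Fin n →₀ ℕ | Finsupp.degree d = k} =
      ((Finset.univ : Finset (Fin n)).finsuppAntidiag k : Set (Fin n →₀ ℕ)) := by
    ext d
    simp [Finset.mem_finsuppAntidiag, Finsupp.degree_eq_sum]
  rw [h, Nat.card_coe_set_eq, Set.ncard_coe_finset, Finset.card_finsuppAntidiag_nat_eq_multichoose,
    Finset.card_univ, Fintype.card_fin, mono]

instance (k : ℕ) : FiniteDimensional K (homogeneousSubmodule (Fin n) K k) :=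
  Module.Finite.iff_fg.2 (homogeneousSubmodule_fg (Fin n) K k)

theorem finite_degree (n k : ℕ) : {d : Fin n →₀ ℕ | Finsupp.degree d = k}.Finite := by
  classical
  have h : {d : Fin n →₀ ℕ | Finsupp.degree d = k} =
      ((Finset.univ : Finset (Fin n)).finsuppAntidiag k : Set (Fin n →₀ ℕ)) := by
    ext d
    simp [Finset.mem_finsuppAntidiag, Finsupp.degree_eq_sum]
  rw [h]
  exact Finset.finite_toSet _

theorem finrank_homogeneous (n k : ℕ) :
    Module.finrank K (homogeneousSubmodule (Fin n) K k) = mono n k := by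
  classical
  haveI : Fintype {d : Fin n →₀ ℕ | Finsupp.degree d = k} := (finite_degree n k).fintype
  rw [← card_degree, homogeneousSubmodule_eq_finsupp_supported,
    LinearEquiv.finrank_eq (AddMonoidAlgebra.supportedEquivFinsupp _),
    Module.finrank_finsupp_self, Nat.card_eq_fintype_card]

theorem order_trans_X_pow {ξ : Fin n → K} {i : Fin n} (hi : ξ i ≠ 0) (r : ℕ) :
    ((((X i + C (ξ i)) ^ r : MvPolynomial (Fin n) K)) : MvPowerSeries (Fin n) K).order = 0 := by
  rw [← nonpos_iff_eq_zero]
  have h : MvPowerSeries.coeff (0 : Fin n →₀ ℕ)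
      ((((X i + C (ξ i)) ^ r : MvPolynomial (Fin n) K)) : MvPowerSeries (Fin n) K) ≠ 0 := by
    rw [coeff_coe, ← constantCoeff_eq, map_pow]
    refine pow_ne_zero _ ?_
    simpa using hi
  have h5 := MvPowerSeries.order_le h
  simpa using h5

theorem mem_vanAt_of_mul {ξ : Fin n → K} {i : Fin n} (hi : ξ i ≠ 0) (r a : ℕ)
    {p : MvPolynomial (Fin n) K} (h : X i ^ r * p ∈ vanAt ξ a) : p ∈ vanAt ξ a := by
  rw [mem_vanAt_order] at h ⊢
  have h3 : trans ξ (X i ^ r * p) = (X i + C (ξ i)) ^ r * trans ξ p := by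
    rw [map_mul, map_pow, trans_X]
  have h4 : ((trans ξ (X i ^ r * p) : MvPolynomial (Fin n) K) : MvPowerSeries (Fin n) K) =
      (((X i + C (ξ i)) ^ r : MvPolynomial (Fin n) K) : MvPowerSeries (Fin n) K) *
        ((trans ξ p : MvPolynomial (Fin n) K) : MvPowerSeries (Fin n) K) := by
    rw [h3, coe_mul]
  rw [h4, MvPowerSeries.order_mul, order_trans_X_pow hi, zero_add] at h
  exact h

theorem eq_zero_of_mem_vanAt {ξ : Fin n → K} {a b : ℕ} (hab : b < a)
    {p : MvPolynomial (Fin n) K} (hp : p.totalDegree ≤ b) (h : p ∈ vanAt ξ a) : p = 0 := by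
  by_contra hne
  have h6 : trans ξ p ≠ 0 := fun h => hne (trans_injective ξ (by rw [h, map_zero]))
  obtain ⟨d, hd⟩ := MvPolynomial.exists_coeff_ne_zero h6
  have h7 : d.degree ≤ b := by
    have h8 : (trans ξ p).totalDegree ≤ b := (totalDegree_trans_le ξ p).trans hp
    refine le_trans ?_ h8
    have := le_totalDegree (mem_support_iff.2 hd)
    rw [Finsupp.degree_eq_sum]
    rwa [Finsupp.sum_fintype _ _ (by simp)] at this
  exact hd (h d (by omega))

/-- The codimension of the forms of degree `k` vanishing to order `≥ a` at `ξ ≠ 0`. -/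
theorem finrank_forms_add_le {ξ : Fin n → K} (hξ : ξ ≠ 0) {k a : ℕ} (ha : 1 ≤ a) (hak : a ≤ k + 1) :
    Module.finrank K ((homogeneousSubmodule (Fin n) K k ⊓ vanAt ξ a : Submodule K (MvPolynomial (Fin n) K)))
      + mono n (a - 1) ≤ mono n k := by
  classical
  obtain ⟨i, hi⟩ : ∃ i, ξ i ≠ 0 := by
    by_contra h
    push Not at h
    exact hξ (funext h)
  let μ : MvPolynomial (Fin n) K →ₗ[K] MvPolynomial (Fin n) K :=
    LinearMap.mulLeft K (X i ^ (k + 1 - a))
  have hμ : Function.Injective μ := by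
    intro p q hpq
    exact mul_left_cancel₀ (pow_ne_zero _ (X_ne_zero i)) hpq
  let Q : Submodule K (MvPolynomial (Fin n) K) := (homogeneousSubmodule (Fin n) K (a - 1)).map μ
  have hQ1 : Q ≤ homogeneousSubmodule (Fin n) K k := by
    rintro _ ⟨p, hp, rfl⟩
    have h1 : (X i ^ (k + 1 - a) * p : MvPolynomial (Fin n) K).IsHomogeneous
        ((k + 1 - a) + (a - 1)) := by
      refine IsHomogeneous.mul ?_ hp
      simpa using (isHomogeneous_X K i).pow (k + 1 - a)
    have h2 : (k + 1 - a) + (a - 1) = k := by omega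
    rw [h2] at h1
    exact h1
  have hQ2 : (homogeneousSubmodule (Fin n) K k ⊓ vanAt ξ a) ⊓ Q = ⊥ := by
    rw [eq_bot_iff]
    rintro _ ⟨⟨-, hv⟩, ⟨p, hp, rfl⟩⟩
    have h1 := mem_vanAt_of_mul hi _ _ hv
    have h2 := eq_zero_of_mem_vanAt (b := a - 1) (by omega) (IsHomogeneous.totalDegree_le hp) h1
    rw [h2]
    simp
  haveI hF : FiniteDimensional K
      (homogeneousSubmodule (Fin n) K k ⊓ vanAt ξ a : Submodule K (MvPolynomial (Fin n) K)) :=
    Submodule.finiteDimensional_of_le inf_le_left
  haveI hF2 : FiniteDimensional K Q := Submodule.finiteDimensional_of_le hQ1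
  have hfin : Module.finrank K Q = mono n (a - 1) := by
    rw [← finrank_homogeneous (K := K) n (a - 1)]
    exact (LinearEquiv.finrank_eq (Submodule.equivMapOfInjective μ hμ _)).symm
  have h := Submodule.finrank_sup_add_finrank_inf_eq
    (homogeneousSubmodule (Fin n) K k ⊓ vanAt ξ a) Q
  rw [hQ2, finrank_bot, add_zero, hfin] at h
  rw [← h, ← finrank_homogeneous (K := K) n k]
  exact Submodule.finrank_mono (sup_le inf_le_left hQ1)

end Vale.Agent.P271.Eq
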