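import Mathlib
import Vale.Agent.P271.Eq.Forms

/-!
# P271, equality case: the asymptotic contradiction
-/

open Filter Topology

namespace Vale.Agent.P271.Eq

theorem pow_le_mono (n b : ℕ) (hn : 1 ≤ n) :
    (b : ℝ) ^ (n - 1) / ((n - 1).factorial : ℝ) ≤ (mono n b : ℝ) := by
  obtain ⟨k, rfl⟩ : ∃ k, n = k + 1 := ⟨n - 1, by omega⟩
  rw [Nat.add_sub_cancel, mono, Nat.multichoose_eq]
  have h1 : (k + 1 + b - 1).choose b = (b + k).choose k := by
    rw [show k + 1 + b - 1 = b + k by omega, ← Nat.choose_symm_add]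
  rw [h1, div_le_iff₀ (by positivity)]
  have h2 : b ^ k ≤ (b + 1).ascFactorial k := by
    calc b ^ k ≤ (b + 1) ^ k := Nat.pow_le_pow_left (Nat.le_succ b) k
      _ ≤ _ := Nat.pow_succ_le_ascFactorial (b + 1) k
  have h3 : (b + 1).ascFactorial k = k.factorial * (b + k).choose k :=
    Nat.ascFactorial_eq_factorial_mul_choose b k
  rw [h3] at h2
  have h4 : ((b ^ k : ℕ) : ℝ) ≤ ((k.factorial * (b + k).choose k : ℕ) : ℝ) := by exact_mod_cast h2
  push_cast at h4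
  linarith [mul_comm (k.factorial : ℝ) ((b + k).choose k : ℝ)]

theorem choose_div_tendsto (n : ℕ) :
    Tendsto (fun m : ℕ => ((m : ℝ) + n) ^ (n + 1) / ((n + 1).factorial : ℝ) / (m : ℝ) ^ (n + 1))
      atTop (𝓝 (1 / ((n + 1).factorial : ℝ))) := by
  have h1 : Tendsto (fun m : ℕ => (1 + (n : ℝ) / (m : ℝ)) ^ (n + 1) / ((n + 1).factorial : ℝ))
      atTop (𝓝 ((1 + 0) ^ (n + 1) / ((n + 1).factorial : ℝ))) := by
    refine Tendsto.div_const ?_ _
    refine Tendsto.pow ?_ _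
    exact tendsto_const_nhds.add (tendsto_const_div_atTop_nhds_zero_nat (n : ℝ))
  rw [add_zero, one_pow] at h1
  refine h1.congr' ?_
  filter_upwards [eventually_gt_atTop 0] with m hm
  have hm' : (m : ℝ) ≠ 0 := by positivity
  have : (1 + (n : ℝ) / (m : ℝ)) = ((m : ℝ) + n) / m := by field_simp
  rw [this, div_pow]
  field_simp

/-- **The contradiction.** -/
theorem eq_contra {n : ℕ} (hn : 1 ≤ n) {l : Filter ℕ} [l.NeBot] (hl : l ≤ atTop) {N T : ℕ → ℕ}
    (hN : Tendsto (fun m => (N m : ℝ) / (m : ℝ) ^ n) l (𝓝 (1 / (n.factorial : ℝ))))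
    (hT : ∀ ε : ℝ, 0 < ε → ∀ᶠ m in l, (T m : ℝ) ≤ ((n : ℝ) / (n + 1) + ε) * (m * N m))
    {δ : ℝ} (hδ : 0 < δ)
    (h : ∀ᶠ m : ℕ in l, ∃ a a₀ a₁ : ℕ, δ * m ≤ ((a₁ - a₀ : ℕ) : ℝ) ∧ δ * m ≤ ((m - a₁ : ℕ) : ℝ) ∧
      δ * m ≤ ((a - 1 : ℕ) : ℝ) ∧
      m * N m + (m - a₁) * (a₁ - a₀) * mono n (a - 1) ≤ (n + m).choose (n + 1) + T m) :
    False := by
  have hfn : (0 : ℝ) < (n.factorial : ℝ) := by positivity
  have hfn1 : (0 : ℝ) < ((n - 1).factorial : ℝ) := by positivity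
  have hn' : (0 : ℝ) < n := by exact_mod_cast hn
  set c : ℝ := δ ^ (n + 1) / ((n - 1).factorial : ℝ) with hc
  have hc0 : 0 < c := by positivity
  set ε : ℝ := c * n.factorial / 2 with hε
  have hε0 : 0 < ε := by positivity
  -- the inequality for large `m`
  have key : ∀ᶠ m in l, (N m : ℝ) / (m : ℝ) ^ n * (1 / (n + 1) - ε) + c ≤
      ((m : ℝ) + n) ^ (n + 1) / ((n + 1).factorial : ℝ) / (m : ℝ) ^ (n + 1) := by
    filter_upwards [h, hT ε hε0, hl (eventually_gt_atTop 0)] with m ⟨a, a₀, a₁, h1, h2, h3, h4⟩ h5 hm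
    have hm' : (0 : ℝ) < m := by exact_mod_cast hm
    have h6 : (c * (m : ℝ) ^ (n + 1)) ≤
        (((m - a₁ : ℕ) : ℝ) * ((a₁ - a₀ : ℕ) : ℝ)) * (mono n (a - 1) : ℝ) := by
      have h7 := pow_le_mono n (a - 1) hn
      have h8 : (δ * m) ^ (n - 1) / ((n - 1).factorial : ℝ) ≤ (mono n (a - 1) : ℝ) := by
        refine le_trans ?_ h7
        gcongr
      calc c * (m : ℝ) ^ (n + 1)
          = ((δ * m) * (δ * m)) * ((δ * m) ^ (n - 1) / ((n - 1).factorial : ℝ)) := by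
            have : n + 1 = (n - 1) + 2 := by omega
            rw [hc, this]
            field_simp
            ring
        _ ≤ _ := by gcongr
    have h4' : ((m * N m + (m - a₁) * (a₁ - a₀) * mono n (a - 1) : ℕ) : ℝ) ≤
        (((n + m).choose (n + 1) + T m : ℕ) : ℝ) := by exact_mod_cast h4
    rw [Nat.cast_add, Nat.cast_add, Nat.cast_mul, Nat.cast_mul, Nat.cast_mul] at h4'
    have h9 : (((n + m).choose (n + 1) : ℕ) : ℝ) ≤ ((m : ℝ) + n) ^ (n + 1) / ((n + 1).factorial : ℝ) := by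
      have := Nat.choose_le_pow_div (α := ℝ) (n + 1) (n + m)
      rw [Nat.cast_add, add_comm (n : ℝ) (m : ℝ)] at this
      exact this
    have h10 : (m : ℝ) * N m * (1 / (n + 1) - ε) + c * (m : ℝ) ^ (n + 1) ≤
        ((m : ℝ) + n) ^ (n + 1) / ((n + 1).factorial : ℝ) := by
      have h11 : (1 : ℝ) / (n + 1) = 1 - (n : ℝ) / (n + 1) := by field_simp; ring
      rw [h11]
      nlinarith [h4', h6, h9, h5]
    rw [le_div_iff₀ (by positivity)]
    refine le_trans (le_of_eq ?_) h10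
    field_simp
    ring
  have hlim1 : Tendsto (fun m : ℕ => (N m : ℝ) / (m : ℝ) ^ n * (1 / (n + 1) - ε) + c) l
      (𝓝 (1 / (n.factorial : ℝ) * (1 / (n + 1) - ε) + c)) :=
    (hN.mul_const _).add_const _
  have hfin := le_of_tendsto_of_tendsto hlim1 ((choose_div_tendsto n).mono_left hl) key
  rw [Nat.factorial_succ] at hfin
  push_cast at hfin
  have h12 : (1 : ℝ) / (n.factorial : ℝ) * (1 / (n + 1) - ε) = 1 / ((n + 1) * (n.factorial : ℝ)) - c / 2 := by
    rw [hε]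
    field_simp
  rw [h12] at hfin
  linarith

end Vale.Agent.P271.Eq
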