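import Mathlib
import Vale.Agent.P271.Eq.Forms

/-!
# P271, equality case: codimension count for the filtration by the order of vanishing

`V` is a finite dimensional space of functions near `0 ∈ ℂⁿ` (`ι : V → functions`), `fil ι k` the
subspace of the `v` with `ι v = O(‖x‖^k)`.
-/

open MvPolynomial Filter Topology Asymptotics

namespace Vale.Agent.P271.Eq

variable {n : ℕ}

section lin

variable {K V M : Type*} [Field K] [AddCommGroup V] [Module K V] [AddCommGroup M] [Module K M]

/-- Dimension count for a linear relation. -/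
theorem finrank_le_of_relation (Γ : Submodule K (V × M)) (F G : Submodule K V) (S : Submodule K M)
    [FiniteDimensional K F] [FiniteDimensional K S] [FiniteDimensional K G]
    (h1 : ∀ v ∈ F, ∃ q ∈ S, (v, q) ∈ Γ) (h2 : ∀ v ∈ F, (v, 0) ∈ Γ → v ∈ G) :
    Module.finrank K F ≤ Module.finrank K S + Module.finrank K G := by
  let Δ : Submodule K (F × S) := Γ.comap ((F.subtype).prodMap S.subtype)
  have hsurj : Function.Surjective ((LinearMap.fst K F S).comp Δ.subtype) := by
    rintro ⟨v, hv⟩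
    obtain ⟨q, hq, hΓ⟩ := h1 v hv
    exact ⟨⟨(⟨v, hv⟩, ⟨q, hq⟩), hΓ⟩, rfl⟩
  have hle : Module.finrank K F ≤ Module.finrank K Δ :=
    LinearMap.finrank_le_finrank_of_surjective hsurj
  let φ : Δ →ₗ[K] S := (LinearMap.snd K F S).comp Δ.subtype
  have h3 := LinearMap.finrank_range_add_finrank_ker φ
  have h4 : Module.finrank K (LinearMap.range φ) ≤ Module.finrank K S := Submodule.finrank_le _
  have h5 : Module.finrank K (LinearMap.ker φ) ≤ Module.finrank K G := by
    let ψ : LinearMap.ker φ →ₗ[K] G := LinearMap.codRestrict G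
      (F.subtype.comp ((LinearMap.fst K F S).comp (Δ.subtype.comp (LinearMap.ker φ).subtype)))
      (by
        rintro ⟨⟨⟨v, q⟩, hΔ⟩, hk⟩
        have hq : q = 0 := hk
        subst hq
        exact h2 v v.2 hΔ)
    refine LinearMap.finrank_le_finrank_of_injective (f := ψ) ?_
    rintro ⟨⟨⟨v, q⟩, hΔ⟩, hk⟩ ⟨⟨⟨v', q'⟩, hΔ'⟩, hk'⟩ h
    have hq : q = 0 := hk
    have hq' : q' = 0 := hk'
    have hv : v = v' := by
      apply Subtype.ext
      exact congrArg (fun g : G => (g : V)) h
    subst hq hq' hv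
    rfl
  omega

end lin

section fil

variable {V : Type*} [AddCommGroup V] [Module ℂ V] (ι : V →ₗ[ℂ] ((Fin n → ℂ) → ℂ))

/-- The elements of order `≥ k` at the origin. -/
noncomputable def fil (k : ℕ) : Submodule ℂ V where
  carrier := {v | ι v =O[𝓝 0] fun x : Fin n → ℂ => ‖x‖ ^ k}
  add_mem' := by
    intro p q hp hq
    show ι (p + q) =O[𝓝 0] _
    rw [map_add]
    exact IsBigO.add hp hq
  zero_mem' := by
    show ι 0 =O[𝓝 0] _
    rw [map_zero]
    exact isBigO_zero _ _
  smul_mem' := by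
    intro c p hp
    show ι (c • p) =O[𝓝 0] _
    rw [map_smul]
    exact IsBigO.const_smul_left hp c

theorem mem_fil {k : ℕ} {v : V} : v ∈ fil ι k ↔ ι v =O[𝓝 0] fun x : Fin n → ℂ => ‖x‖ ^ k := Iff.rfl

theorem pow_isBigO {k l : ℕ} (h : k ≤ l) :
    (fun x : Fin n → ℂ => ‖x‖ ^ l) =O[𝓝 0] fun x => ‖x‖ ^ k := by
  refine IsBigO.of_bound 1 ?_
  filter_upwards [Metric.ball_mem_nhds (0 : Fin n → ℂ) one_pos] with x hx
  rw [mem_ball_zero_iff] at hx
  rw [one_mul, Real.norm_of_nonneg (by positivity), Real.norm_of_nonneg (by positivity)]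
  exact pow_le_pow_of_le_one (norm_nonneg _) hx.le h

theorem fil_anti {k l : ℕ} (h : k ≤ l) : fil ι l ≤ fil ι k :=
  fun _ hv => IsBigO.trans hv (pow_isBigO h)

/-- The relation saying that `q` is the Taylor polynomial of degree `k`. -/
noncomputable def rel (k : ℕ) : Submodule ℂ (V × MvPolynomial (Fin n) ℂ) where
  carrier := {p | (fun x => ι p.1 x - eval x p.2) =O[𝓝 0] fun x : Fin n → ℂ => ‖x‖ ^ (k + 1)}
  add_mem' := by
    intro p q hp hq
    have h := IsBigO.add hp hq
    refine h.congr_left fun x => ?_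
    simp only [Prod.fst_add, Prod.snd_add, map_add, Pi.add_apply]
    ring
  zero_mem' := by
    show (fun x => ι (0 : V × MvPolynomial (Fin n) ℂ).1 x -
      eval x (0 : V × MvPolynomial (Fin n) ℂ).2) =O[𝓝 0] _
    simp only [Prod.fst_zero, Prod.snd_zero, map_zero, Pi.zero_apply, sub_zero]
    exact isBigO_zero _ _
  smul_mem' := by
    intro c p hp
    have h := IsBigO.const_mul_left hp c
    refine h.congr_left fun x => ?_
    simp only [Prod.smul_fst, Prod.smul_snd, map_smul, Pi.smul_apply, smul_eq_mul, smul_eval]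
    ring

theorem mem_rel {k : ℕ} {v : V} {q : MvPolynomial (Fin n) ℂ} :
    (v, q) ∈ rel ι k ↔ (fun x => ι v x - eval x q) =O[𝓝 0] fun x : Fin n → ℂ => ‖x‖ ^ (k + 1) :=
  Iff.rfl

variable [FiniteDimensional ℂ V]

theorem step_aux (k : ℕ) (S : Submodule ℂ (MvPolynomial (Fin n) ℂ)) [FiniteDimensional ℂ S]
    (hS : ∀ v ∈ fil ι k, ∃ q ∈ S, (v, q) ∈ rel ι k) :
    Module.finrank ℂ (fil ι k) ≤ Module.finrank ℂ S + Module.finrank ℂ (fil ι (k + 1)) := by
  refine finrank_le_of_relation (rel ι k) _ _ S hS ?_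
  intro v _ h
  rw [mem_rel] at h
  rw [mem_fil]
  simpa using h

omit [FiniteDimensional ℂ V] in
/-- The count with defects `b i`. -/
theorem sum_le (h0 : fil ι 0 = ⊤) (b : ℕ → ℕ)
    (hb : ∀ k, Module.finrank ℂ (fil ι k) + b k ≤ mono n k + Module.finrank ℂ (fil ι (k + 1)))
    (k : ℕ) :
    Module.finrank ℂ V + ∑ i ∈ Finset.range k, b i ≤
      ∑ i ∈ Finset.range k, mono n i + Module.finrank ℂ (fil ι k) := by
  induction k with
  | zero =>
    simp only [Finset.range_zero, Finset.sum_empty, add_zero, zero_add]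
    rw [h0, finrank_top]
  | succ k ih =>
    rw [Finset.sum_range_succ, Finset.sum_range_succ]
    have := hb k
    omega

theorem sum_mono (n k : ℕ) :
    ∑ i ∈ Finset.range (k + 1), mono n i = (n + k).choose n := by
  have h := Nat.sum_range_multichoose k n
  rw [show (∑ i ∈ Finset.range (k + 1), mono n i) = (k + n).choose n from ?_, add_comm]
  rw [← h]
  rfl

theorem sum_sum_mono (n m : ℕ) :
    ∑ k ∈ Finset.range m, ∑ i ∈ Finset.range (k + 1), mono n i = (n + m).choose (n + 1) := by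
  induction m with
  | zero => simp
  | succ m ih =>
    rw [Finset.sum_range_succ, ih, sum_mono]
    rw [show n + (m + 1) = (n + m) + 1 from rfl, Nat.choose_succ_succ, add_comm]

/-- **Main count.** -/
theorem codef_main {ξ : Fin n → ℂ} (hξ : ξ ≠ 0) {a a₀ a₁ m : ℕ} (ha : 1 ≤ a) (ha0 : a ≤ a₀ + 1)
    (h0 : fil ι 0 = ⊤)
    (hT : ∀ k, ∀ v ∈ fil ι k, ∃ q ∈ homogeneousSubmodule (Fin n) ℂ k, (v, q) ∈ rel ι k)
    (h : ∀ k, a₀ ≤ k → k < a₁ → ∀ v ∈ fil ι k, ∀ q ∈ homogeneousSubmodule (Fin n) ℂ k,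
      (v, q) ∈ rel ι k → q ∈ vanAt ξ a) :
    m * Module.finrank ℂ V + (m - a₁) * (a₁ - a₀) * mono n (a - 1) ≤
      (n + m).choose (n + 1) + ∑ k ∈ Finset.range m, Module.finrank ℂ (fil ι (k + 1)) := by
  classical
  let b : ℕ → ℕ := fun k => if a₀ ≤ k ∧ k < a₁ then mono n (a - 1) else 0
  have hb : ∀ k, Module.finrank ℂ (fil ι k) + b k ≤
      mono n k + Module.finrank ℂ (fil ι (k + 1)) := by
    intro k
    by_cases hk : a₀ ≤ k ∧ k < a₁
    · have hbk : b k = mono n (a - 1) := if_pos hk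
      rw [hbk]
      have hF : FiniteDimensional ℂ
          (homogeneousSubmodule (Fin n) ℂ k ⊓ vanAt ξ a : Submodule ℂ (MvPolynomial (Fin n) ℂ)) :=
        Submodule.finiteDimensional_of_le inf_le_left
      have h1 := step_aux ι k (homogeneousSubmodule (Fin n) ℂ k ⊓ vanAt ξ a) (by
        intro v hv
        obtain ⟨q, hq, hr⟩ := hT k v hv
        exact ⟨q, ⟨hq, h k hk.1 hk.2 v hv q hq hr⟩, hr⟩)
      have h2 := finrank_forms_add_le hξ ha (show a ≤ k + 1 by omega)
      omega
    · have hbk : b k = 0 := if_neg hk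
      rw [hbk, add_zero]
      have h1 := step_aux ι k (homogeneousSubmodule (Fin n) ℂ k) (hT k)
      rwa [finrank_homogeneous] at h1
  have h1 : ∀ k ∈ Finset.range m, Module.finrank ℂ V + ∑ i ∈ Finset.range (k + 1), b i ≤
      ∑ i ∈ Finset.range (k + 1), mono n i + Module.finrank ℂ (fil ι (k + 1)) :=
    fun k _ => sum_le ι h0 b hb (k + 1)
  have h2 := Finset.sum_le_sum h1
  rw [Finset.sum_add_distrib, Finset.sum_add_distrib, sum_sum_mono, Finset.sum_const,
    Finset.card_range, smul_eq_mul] at h2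
  have h3 : (m - a₁) * (a₁ - a₀) * mono n (a - 1) ≤
      ∑ k ∈ Finset.range m, ∑ i ∈ Finset.range (k + 1), b i := by
    have h4 : ∀ k ∈ Finset.Ico a₁ m, (a₁ - a₀) * mono n (a - 1) ≤
        ∑ i ∈ Finset.range (k + 1), b i := by
      intro k hk
      rw [Finset.mem_Ico] at hk
      have h5 : ∑ i ∈ Finset.Ico a₀ a₁, b i = (a₁ - a₀) * mono n (a - 1) := by
        rw [Finset.sum_congr rfl (g := fun _ => mono n (a - 1)), Finset.sum_const,
          Nat.card_Ico, smul_eq_mul]
        intro i hi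
        exact if_pos (Finset.mem_Ico.1 hi)
      rw [← h5]
      refine Finset.sum_le_sum_of_subset ?_
      intro i hi
      rw [Finset.mem_Ico] at hi
      rw [Finset.mem_range]
      omega
    calc (m - a₁) * (a₁ - a₀) * mono n (a - 1)
        = ∑ k ∈ Finset.Ico a₁ m, (a₁ - a₀) * mono n (a - 1) := by
          rw [Finset.sum_const, Nat.card_Ico, smul_eq_mul, mul_assoc]
      _ ≤ ∑ k ∈ Finset.Ico a₁ m, ∑ i ∈ Finset.range (k + 1), b i := Finset.sum_le_sum h4
      _ ≤ _ := by
          refine Finset.sum_le_sum_of_subset ?_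
          intro i hi
          rw [Finset.mem_Ico] at hi
          rw [Finset.mem_range]
          omega
  omega

end fil

end Vale.Agent.P271.Eq
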