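import Mathlib
import Vale.Agent.P271.Eq.Codef

/-!
# P271, equality case: the Cauchy estimate for orders, roots near `1`, slices
-/

open Filter Topology Asymptotics Metric

namespace Vale.Agent.P271.Eq

/-- If `f = O(‖x‖^(k+1))` is holomorphic near `0`, then `fderiv f = O(‖x‖^k)`. -/
theorem fderiv_isBigO {p : ℕ} {f : (Fin p → ℂ) → ℂ}
    (hf : ∀ᶠ x in 𝓝 (0 : Fin p → ℂ), DifferentiableAt ℂ f x) {k : ℕ}
    (h : f =O[𝓝 0] fun x => ‖x‖ ^ (k + 1)) :
    (fun x => fderiv ℂ f x) =O[𝓝 0] fun x : Fin p → ℂ => ‖x‖ ^ k := by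
  obtain ⟨C, hC⟩ := h.bound
  have hall := hf.and hC
  rw [Metric.eventually_nhds_iff] at hall
  obtain ⟨ρ, hρ, hall⟩ := hall
  have hC0 : ∀ x : Fin p → ℂ, dist x 0 < ρ → ‖f x‖ ≤ |C| * ‖x‖ ^ (k + 1) := by
    intro x hx
    refine (hall hx).2.trans ?_
    rw [norm_pow, norm_norm]
    exact mul_le_mul_of_nonneg_right (le_abs_self C) (by positivity)
  have hpos : ∀ x : Fin p → ℂ, x ≠ 0 → ‖x‖ < ρ / 2 →
      ‖fderiv ℂ f x‖ ≤ (|C| * 2 ^ (k + 1) + |C|) * ‖x‖ ^ k := by
    intro x hx0 hx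
    have hxn : 0 < ‖x‖ := norm_pos_iff.2 hx0
    have hsub : ∀ w ∈ ball x ‖x‖, dist w 0 < ρ ∧ ‖w‖ ≤ 2 * ‖x‖ := by
      intro w hw
      rw [mem_ball_iff_norm] at hw
      have h1 : ‖w‖ ≤ 2 * ‖x‖ := by
        calc ‖w‖ = ‖(w - x) + x‖ := by rw [sub_add_cancel]
          _ ≤ ‖w - x‖ + ‖x‖ := norm_add_le _ _
          _ ≤ 2 * ‖x‖ := by linarith
      refine ⟨?_, h1⟩
      rw [dist_zero_right]
      linarith
    have hd : DifferentiableOn ℂ f (ball x ‖x‖) := fun w hw =>
      (hall (hsub w hw).1).1.differentiableWithinAt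
    have hmaps : Set.MapsTo f (ball x ‖x‖)
        (closedBall (f x) ((|C| * 2 ^ (k + 1) + |C|) * ‖x‖ ^ (k + 1))) := by
      intro w hw
      rw [mem_closedBall, dist_eq_norm]
      have h1 : ‖f w‖ ≤ |C| * 2 ^ (k + 1) * ‖x‖ ^ (k + 1) := by
        refine (hC0 w (hsub w hw).1).trans ?_
        rw [mul_assoc, ← mul_pow]
        have := (hsub w hw).2
        gcongr
      have h2 : ‖f x‖ ≤ |C| * ‖x‖ ^ (k + 1) := hC0 x (by rw [dist_zero_right]; linarith)
      calc ‖f w - f x‖ ≤ ‖f w‖ + ‖f x‖ := norm_sub_le _ _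
        _ ≤ |C| * 2 ^ (k + 1) * ‖x‖ ^ (k + 1) + |C| * ‖x‖ ^ (k + 1) := add_le_add h1 h2
        _ = _ := by ring
    have h3 := Complex.norm_fderiv_le_div_of_mapsTo_ball hd hmaps hxn
    refine h3.trans (le_of_eq ?_)
    rw [pow_succ ‖x‖ k]
    field_simp
  rcases Nat.eq_zero_or_pos k with hk | hk
  · subst hk
    -- the derivative is bounded near `0`
    refine IsBigO.of_bound ((|C| * 2 ^ (0 + 1) + |C|) + ‖fderiv ℂ f 0‖) ?_
    filter_upwards [ball_mem_nhds (0 : Fin p → ℂ) (by positivity : 0 < ρ / 2)] with x hx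
    rw [mem_ball_zero_iff] at hx
    rw [pow_zero, norm_one, mul_one]
    by_cases hx0 : x = 0
    · subst hx0
      have : 0 ≤ |C| * 2 ^ (0 + 1) + |C| := by positivity
      linarith
    · have := hpos x hx0 hx
      rw [pow_zero, mul_one] at this
      have h2 : 0 ≤ ‖fderiv ℂ f 0‖ := norm_nonneg _
      linarith
  · have h0 : fderiv ℂ f 0 = 0 := by
      -- `f = O(‖x‖^2)` implies that the derivative vanishes at `0`
      have h1 : f =O[𝓝 0] fun x => ‖x‖ ^ 2 := h.trans (pow_isBigO (by omega))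
      have hf00 : f 0 = 0 := by
        have := hC0 0 (by rwa [dist_self])
        simpa using this
      have h2 : HasFDerivAt f (0 : (Fin p → ℂ) →L[ℂ] ℂ) 0 := by
        rw [hasFDerivAt_iff_isLittleO_nhds_zero]
        simp only [zero_add, hf00, sub_zero, _root_.zero_apply]
        refine h1.trans_isLittleO ?_
        have h3 : (fun x : Fin p → ℂ => ‖x‖ ^ 2) = fun x => ‖x‖ * ‖x‖ := by
          funext x
          ring
        rw [h3]
        have h4 : (fun x : Fin p → ℂ => ‖x‖) =o[𝓝 0] fun _ => (1 : ℝ) := by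
          rw [isLittleO_one_iff]
          simpa using (continuous_norm (E := Fin p → ℂ)).tendsto 0
        have h5 := h4.mul_isBigO (isBigO_refl (fun x : Fin p → ℂ => ‖x‖) (𝓝 0))
        simp only [one_mul] at h5
        exact h5.of_norm_right
      exact h2.fderiv
    refine IsBigO.of_bound (|C| * 2 ^ (k + 1) + |C|) ?_
    filter_upwards [ball_mem_nhds (0 : Fin p → ℂ) (by positivity : 0 < ρ / 2)] with x hx
    rw [mem_ball_zero_iff] at hx
    rw [norm_pow, norm_norm]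
    by_cases hx0 : x = 0
    · subst hx0
      rw [h0, norm_zero, norm_zero, zero_pow (by omega), mul_zero]
    · exact hpos x hx0 hx

/-- Roots near `1`. -/
theorem exists_root_near_one {d : ℕ} (hd : 0 < d) :
    ∃ ro : ℂ → ℂ, (∀ᶠ w in 𝓝 (1 : ℂ), ro w ^ d = w) ∧ ro 1 = 1 ∧ DifferentiableAt ℂ ro 1 := by
  refine ⟨fun w => Complex.exp (Complex.log w / d), ?_, by simp, ?_⟩
  · have h1 : ∀ᶠ w in 𝓝 (1 : ℂ), w ≠ 0 := isOpen_ne.mem_nhds one_ne_zero
    filter_upwards [h1] with w hw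
    rw [← Complex.exp_nat_mul]
    have : (d : ℂ) * (Complex.log w / d) = Complex.log w := by
      have : (d : ℂ) ≠ 0 := by exact_mod_cast hd.ne'
      field_simp
    rw [this, Complex.exp_log hw]
  · refine DifferentiableAt.cexp ?_
    refine DifferentiableAt.div_const ?_ _
    exact Complex.differentiableAt_log (by simp [Complex.slitPlane])

end Vale.Agent.P271.Eq
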