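import Vale.Agent.P271.Eq.Slice

/-!
# P271, equality case: `‖(x_1, …, x_n)‖ ^ (-2 n)` is not locally integrable
-/

open MeasureTheory Filter Topology Asymptotics Metric
open scoped ENNReal NNReal

namespace Vale.Agent.P271.Eq

open Vale.Agent.P271.Inst

variable {n : ℕ}

theorem volume_polydisc {e ρ : ℝ} :
    volume (Set.pi Set.univ (Fin.cons (ball (0 : ℂ) e) fun _ : Fin n => ball (0 : ℂ) ρ) :
      Set (Fin (n + 1) → ℂ)) =
      (ENNReal.ofReal e ^ 2 * NNReal.pi) * (ENNReal.ofReal ρ ^ 2 * NNReal.pi) ^ n := by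
  rw [volume_pi_pi, Fin.prod_univ_succ]
  simp only [Fin.cons_zero, Fin.cons_succ, Complex.volume_ball, Finset.prod_const,
    Finset.card_univ, Fintype.card_fin]

theorem not_lint_tl (hn : 1 ≤ n) {c₀ : ℝ≥0∞} (hc₀ : c₀ ≠ 0) (hc₁ : c₀ ≠ ⊤)
    {g : (Fin (n + 1) → ℂ) → ℝ≥0∞}
    (hg : ∀ᶠ x in 𝓝 (0 : Fin (n + 1) → ℂ), c₀ * (ENNReal.ofReal (‖tl x‖ ^ (2 * n)))⁻¹ ≤ g x) :
    ¬ LInt (0 : Fin (n + 1) → ℂ) g := by
  intro h
  obtain ⟨e, he, -, hI⟩ := (h.mono hg).exists_ball one_pos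
  set f : (Fin (n + 1) → ℂ) → ℝ≥0∞ := fun x => c₀ * (ENNReal.ofReal (‖tl x‖ ^ (2 * n)))⁻¹ with hf
  obtain ⟨r, hr0, hr1, hrt⟩ : ∃ r : ℕ → ℝ, (∀ j, 0 < r j) ∧ (∀ j, r j ≤ e / 2) ∧
      Tendsto r atTop (𝓝 0) := by
    refine ⟨fun j => (e / 2) * (1 / 2) ^ j, fun j => by positivity, fun j =>
      mul_le_of_le_one_right (by positivity) (pow_le_one₀ (by norm_num) (by norm_num)), ?_⟩
    have h1 : Tendsto (fun j : ℕ => ((1 : ℝ) / 2) ^ j) atTop (𝓝 0) :=
      tendsto_pow_atTop_nhds_zero_of_lt_one (by norm_num) (by norm_num)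
    simpa using h1.const_mul (e / 2)
  let D : ℕ → Set (Fin (n + 1) → ℂ) := fun j =>
    Set.pi Set.univ (Fin.cons (ball (0 : ℂ) (e / 2)) fun _ : Fin n => ball (0 : ℂ) (r j))
  have hDm : ∀ j, MeasurableSet (D j) := fun j =>
    MeasurableSet.univ_pi fun i => by
      refine Fin.cases ?_ (fun i => ?_) i
      · exact measurableSet_ball
      · exact measurableSet_ball
  have hDtl : ∀ j, ∀ x ∈ D j, ‖tl x‖ ≤ r j := by
    intro j x hx
    rw [pi_norm_le_iff_of_nonneg (hr0 j).le]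
    intro i
    have h1 := hx i.succ (Set.mem_univ _)
    simp only [Fin.cons_succ, mem_ball_zero_iff] at h1
    exact h1.le
  have hDe : ∀ j, D j ⊆ ball 0 e := by
    intro j x hx
    rw [mem_ball_zero_iff]
    refine lt_of_le_of_lt ?_ (half_lt_self he)
    rw [pi_norm_le_iff_of_nonneg (by positivity)]
    intro i
    refine Fin.cases ?_ (fun i => ?_) i
    · have h1 := hx 0 (Set.mem_univ _)
      simp only [Fin.cons_zero, mem_ball_zero_iff] at h1
      exact h1.le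
    · exact (norm_le_pi_norm (tl x) i).trans ((hDtl j x hx).trans (hr1 j))
  have hvol : ∀ j, volume (D j) = (ENNReal.ofReal (e / 2) ^ 2 * NNReal.pi) *
      (ENNReal.ofReal (r j) ^ 2 * NNReal.pi) ^ n := fun j => volume_polydisc
  -- the volumes tend to zero
  have hvt : Tendsto ((volume.restrict (ball (0 : Fin (n + 1) → ℂ) e)) ∘ D) atTop (𝓝 0) := by
    have h1 : Tendsto (fun j => (ENNReal.ofReal (e / 2) ^ 2 * NNReal.pi) *
      (ENNReal.ofReal (r j) ^ 2 * NNReal.pi) ^ n) atTop (𝓝 0) := by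
      have h2 : Tendsto (fun j => ENNReal.ofReal (r j)) atTop (𝓝 0) := by
        have := (ENNReal.continuous_ofReal.tendsto 0).comp hrt
        rw [ENNReal.ofReal_zero] at this
        exact this
      have h3 : Tendsto (fun j => ENNReal.ofReal (r j) ^ 2) atTop (𝓝 0) := by
        have := (ENNReal.continuous_pow 2).tendsto 0 |>.comp h2
        simpa [Function.comp_def] using this
      have h4 : Tendsto (fun j => ENNReal.ofReal (r j) ^ 2 * NNReal.pi) atTop (𝓝 0) := by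
        have := ENNReal.Tendsto.mul_const (b := (NNReal.pi : ℝ≥0∞)) h3 (Or.inr ENNReal.coe_ne_top)
        simpa using this
      have h5 : Tendsto (fun j => (ENNReal.ofReal (r j) ^ 2 * NNReal.pi) ^ n) atTop (𝓝 0) := by
        have := (ENNReal.continuous_pow n).tendsto 0 |>.comp h4
        simpa [Function.comp_def, zero_pow (by omega : n ≠ 0)] using this
      have h6 := ENNReal.Tendsto.const_mul
        (a := (ENNReal.ofReal (e / 2) ^ 2 * NNReal.pi : ℝ≥0∞)) h5
        (Or.inr (ENNReal.mul_ne_top (ENNReal.pow_ne_top ENNReal.ofReal_ne_top)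
          ENNReal.coe_ne_top))
      simpa using h6
    refine tendsto_of_tendsto_of_tendsto_of_le_of_le tendsto_const_nhds h1
      (fun _ => bot_le) fun j => ?_
    rw [← hvol j]
    exact Measure.restrict_apply_le _ _
  have h0 : ∫⁻ x in ball (0 : Fin (n + 1) → ℂ) e, f x ≠ ⊤ := hI.ne
  have h1 := tendsto_setLIntegral_zero h0 hvt
  -- lower bound of the integrals
  set K : ℝ≥0∞ := c₀ * ((ENNReal.ofReal (e / 2) ^ 2 * NNReal.pi) * (NNReal.pi : ℝ≥0∞) ^ n) with hK
  have hpi : (NNReal.pi : ℝ≥0∞) ≠ 0 := by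
    rw [Ne, ENNReal.coe_eq_zero]
    exact NNReal.pi_ne_zero
  have hK0 : K ≠ 0 := by
    refine mul_ne_zero hc₀ (mul_ne_zero (mul_ne_zero (pow_ne_zero _ ?_) hpi) (pow_ne_zero _ hpi))
    rw [Ne, ENNReal.ofReal_eq_zero, not_le]
    positivity
  have hlow : ∀ j, K ≤ ∫⁻ x in D j, f x ∂(volume.restrict (ball (0 : Fin (n + 1) → ℂ) e)) := by
    intro j
    rw [Measure.restrict_restrict (hDm j), Set.inter_eq_left.2 (hDe j)]
    have h2 : ∀ x ∈ D j, c₀ * (ENNReal.ofReal (r j ^ (2 * n)))⁻¹ ≤ f x := by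
      intro x hx
      rw [hf]
      refine mul_le_mul_right ?_ _
      refine ENNReal.inv_le_inv.2 (ENNReal.ofReal_le_ofReal ?_)
      exact pow_le_pow_left₀ (norm_nonneg _) (hDtl j x hx) _
    calc K = c₀ * (ENNReal.ofReal (r j ^ (2 * n)))⁻¹ * volume (D j) := by
          rw [hvol j, hK, mul_pow, ← pow_mul, ENNReal.ofReal_pow (hr0 j).le]
          have h3 : (ENNReal.ofReal (r j) ^ (2 * n))⁻¹ * ENNReal.ofReal (r j) ^ (2 * n) = 1 := by
            refine ENNReal.inv_mul_cancel (pow_ne_zero _ ?_) (ENNReal.pow_ne_top ENNReal.ofReal_ne_top)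
            rw [Ne, ENNReal.ofReal_eq_zero, not_le]
            exact hr0 j
          calc c₀ * ((ENNReal.ofReal (e / 2) ^ 2 * NNReal.pi) * (NNReal.pi : ℝ≥0∞) ^ n)
              = c₀ * ((ENNReal.ofReal (e / 2) ^ 2 * NNReal.pi) * (NNReal.pi : ℝ≥0∞) ^ n) *
                ((ENNReal.ofReal (r j) ^ (2 * n))⁻¹ * ENNReal.ofReal (r j) ^ (2 * n)) := by
                rw [h3, mul_one]
            _ = _ := by ring
      _ = ∫⁻ _ in D j, c₀ * (ENNReal.ofReal (r j ^ (2 * n)))⁻¹ := by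
          rw [lintegral_const, Measure.restrict_apply MeasurableSet.univ, Set.univ_inter]
      _ ≤ ∫⁻ x in D j, f x := setLIntegral_mono' (hDm j) h2
  exact hK0 (le_antisymm (ge_of_tendsto' h1 hlow) bot_le)

end Vale.Agent.P271.Eq
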