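import Vale.Agent.P271.Eq.Sections
import Vale.Agent.P271.Eq.Tail
import Vale.Agent.P271.H879.Chart
import Vale.Agent.P271.H741.Chart

/-!
# P271, equality case: the generator
-/

open MeasureTheory Filter Topology Asymptotics Metric
open scoped ENNReal NNReal

namespace Vale.Agent.P271.Eq

open Vale.Agent.P271.Sch Vale.Agent.P271.H741 Vale.Agent.P271.Inst
open scoped Vale.Agent.P271.Inst

variable {n : ℕ} {C : GCone n} {φ : C.Pt}

/-- The weight given by one finite set of sections of degree `m`. -/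
noncomputable def oneW (S : Finset C.R) {m : ℕ} (hS : ∀ s ∈ S, s ∈ C.A m) (hne : ∃ s ∈ S, s ≠ 0)
    {κ : ℝ} (hκ : 0 ≤ κ) : RWeight C where
  r := 1
  s _ := S.card
  g _ j := (S.equivFin.symm j : C.R)
  d _ := m
  κ _ := κ
  mem _ j := hS _ (S.equivFin.symm j).2
  nonneg _ := hκ
  ne _ := by
    obtain ⟨s, hs, hs0⟩ := hne
    refine ⟨S.equivFin ⟨s, hs⟩, ?_⟩
    simpa using hs0

theorem oneW_deg (S : Finset C.R) {m : ℕ} (hS : ∀ s ∈ S, s ∈ C.A m) (hne : ∃ s ∈ S, s ≠ 0)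
    {κ : ℝ} (hκ : 0 ≤ κ) : (oneW S hS hne hκ).deg = κ * m := by
  unfold RWeight.deg
  show ∑ _a : Fin 1, κ * m = κ * m
  simp

theorem oneW_val (S : Finset C.R) {m : ℕ} (hS : ∀ s ∈ S, s ∈ C.A m) (hne : ∃ s ∈ S, s ≠ 0)
    {κ : ℝ} (hκ : 0 ≤ κ) (χ : C.Pt) :
    (oneW S hS hne hκ).val χ = (ENNReal.ofReal (∑ s ∈ S, ‖χ s‖ ^ 2)) ^ (-κ) := by
  unfold RWeight.val
  show ∏ _a : Fin 1, (ENNReal.ofReal (∑ j : Fin S.card, ‖χ (S.equivFin.symm j : C.R)‖ ^ 2)) ^ (-κ)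
    = _
  rw [Finset.prod_const, Finset.card_univ, Fintype.card_fin, pow_one]
  congr 2
  rw [← Finset.sum_coe_sort S fun s => ‖χ s‖ ^ 2]
  exact Fintype.sum_equiv S.equivFin.symm _ _ fun j => rfl

/-- The weight is integrable at points where one section does not vanish. -/
theorem intAt_of_ne {χ : C.Pt} (hχ : GCone.NV χ) (S : Finset C.R) {m : ℕ}
    (hS : ∀ s ∈ S, s ∈ C.A m) (hne : ∃ s ∈ S, s ≠ 0) {κ : ℝ} (hκ : 0 ≤ κ) {s : C.R} (hs : s ∈ S)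
    (h : χ s ≠ 0) : IntAt (n + 1) χ (oneW S hS hne hκ).val := by
  have hft := C.finiteType
  obtain ⟨d, hd, u, hu, hχu⟩ := hχ
  have hmax : (RingHom.ker χ).IsMaximal := RingHom.ker_isMaximal_of_surjective (χ : C.R →+* ℂ)
    fun c => ⟨algebraMap ℂ C.R c, by simp⟩
  obtain ⟨hreg, hdim⟩ := C.regular (RingHom.ker χ) ⟨d, hd, u, hu, fun h => hχu h⟩
  obtain ⟨c, -⟩ := H879.exists_chart χ (RingHom.ker χ) (fun r => Iff.rfl) hreg hdim
  rw [c.intAt_iff]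
  set δ : ℝ := ‖χ s‖ ^ 2 / 2 with hδ
  have hδ0 : 0 < δ := by
    have : 0 < ‖χ s‖ := norm_pos_iff.2 h
    positivity
  have hc : Tendsto (fun x => ‖c.ψ x s‖ ^ 2) (𝓝 0) (𝓝 (‖χ s‖ ^ 2)) :=
    ((Inst.tendsto_iff.1 c.tendsto_ψ s).norm).pow 2
  have hev : ∀ᶠ x in 𝓝 (0 : Fin (n + 1) → ℂ), (oneW S hS hne hκ).val (c.ψ x) ≤
      (ENNReal.ofReal δ) ^ (-κ) := by
    filter_upwards [hc.eventually_const_lt (half_lt_self (by
      have : 0 < ‖χ s‖ := norm_pos_iff.2 h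
      positivity))] with x hx
    rw [oneW_val, ENNReal.rpow_neg, ENNReal.rpow_neg]
    refine ENNReal.inv_le_inv.2 (ENNReal.rpow_le_rpow (ENNReal.ofReal_le_ofReal ?_) hκ)
    refine hx.le.trans ?_
    exact Finset.single_le_sum (f := fun s => ‖c.ψ x s‖ ^ 2) (fun _ _ => by positivity) hs
  refine LInt.mono ?_ hev
  refine ⟨ball 0 1, ball_mem_nhds _ one_pos, ?_⟩
  rw [lintegral_const, Measure.restrict_apply MeasurableSet.univ, Set.univ_inter]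
  refine ENNReal.mul_lt_top ?_ measure_ball_lt_top
  rw [ENNReal.rpow_neg, ENNReal.ofReal_rpow_of_nonneg hδ0.le hκ, lt_top_iff_ne_top,
    ENNReal.inv_ne_top, Ne, ENNReal.ofReal_eq_zero, not_le]
  exact Real.rpow_pos_of_pos hδ0 _

/-- The weight is not integrable at `φ`. -/
theorem not_intAt (hn : 1 ≤ n) (P : HParam C φ) (c : Chart φ (n + 1))
    (hc : ∀ j, c.t j = P.X j - algebraMap ℂ C.R (φ (P.X j)))
    {t : ℝ} (ht : 0 < t) {m : ℕ} (hm : 1 ≤ m) (S : Finset C.R)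
    (hS : ∀ s ∈ S, s ∈ C.A m ∧ ∃ k : ℕ, t * m ≤ k ∧ s ∈ pI φ ^ k) (hne : ∃ s ∈ S, s ≠ 0)
    (hκ : 0 ≤ (n : ℝ) / (t * m)) :
    ¬ IntAt (n + 1) φ (oneW S (fun s hs => (hS s hs).1) hne hκ).val := by
  rw [c.intAt_iff]
  have hm0 : (0 : ℝ) < m := by exact_mod_cast hm
  have htm : 0 < t * m := mul_pos ht hm0
  -- the sections are small
  have hO : (fun x => ∑ s ∈ S, ‖c.ψ x s‖ ^ 2) =O[𝓝 (0 : Fin (n + 1) → ℂ)]
      fun x => (‖tl x‖ ^ (t * m)) ^ 2 := by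
    refine IsBigO.fun_sum fun s hs => ?_
    obtain ⟨hsm, k, hk, hsk⟩ := hS s hs
    have h1 : (fun x => c.ψ x s) =O[𝓝 0] fun x => ‖tl x‖ ^ k :=
      isBigO_tl P c hc hsm (isBigO_slice c (isBigO_of_mem_pow c hsk))
    have h2 : (fun x : Fin (n + 1) → ℂ => ‖tl x‖ ^ k) =O[𝓝 0] fun x => ‖tl x‖ ^ (t * m) := by
      refine IsBigO.of_bound 1 ?_
      filter_upwards [ball_mem_nhds (0 : Fin (n + 1) → ℂ) one_pos] with x hx
      rw [mem_ball_zero_iff] at hx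
      have h3 : ‖tl x‖ ≤ 1 := (norm_tl_le x).trans hx.le
      rw [one_mul, Real.norm_of_nonneg (by positivity), Real.norm_of_nonneg (by positivity),
        ← Real.rpow_natCast]
      exact Real.rpow_le_rpow_of_exponent_ge' (norm_nonneg _) h3 htm.le hk
    exact ((h1.trans h2).norm_left).pow 2
  obtain ⟨K, hK0, hK⟩ := hO.exists_pos
  rw [isBigOWith_iff] at hK
  set κ : ℝ := (n : ℝ) / (t * m) with hκd
  have hKκ : 0 < K ^ κ := Real.rpow_pos_of_pos hK0 _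
  refine not_lint_tl hn (c₀ := (ENNReal.ofReal (K ^ κ))⁻¹)
    (ENNReal.inv_ne_zero.2 ENNReal.ofReal_ne_top) ?_ ?_
  · rw [ENNReal.inv_ne_top, Ne, ENNReal.ofReal_eq_zero, not_le]
    exact hKκ
  filter_upwards [hK] with x hx
  have hY0 : 0 ≤ ∑ s ∈ S, ‖c.ψ x s‖ ^ 2 := Finset.sum_nonneg fun _ _ => by positivity
  rw [Real.norm_of_nonneg hY0, Real.norm_of_nonneg (by positivity)] at hx
  rw [oneW_val, ENNReal.rpow_neg, ENNReal.ofReal_rpow_of_nonneg hY0 hκ,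
    ← ENNReal.mul_inv (Or.inr ENNReal.ofReal_ne_top) (Or.inl ENNReal.ofReal_ne_top),
    ← ENNReal.ofReal_mul hKκ.le]
  refine ENNReal.inv_le_inv.2 (ENNReal.ofReal_le_ofReal ?_)
  calc (∑ s ∈ S, ‖c.ψ x s‖ ^ 2) ^ κ ≤ (K * (‖tl x‖ ^ (t * m)) ^ 2) ^ κ :=
        Real.rpow_le_rpow hY0 hx hκ
    _ = K ^ κ * ((‖tl x‖ ^ (t * m)) ^ 2) ^ κ := Real.mul_rpow hK0.le (by positivity)
    _ = K ^ κ * ‖tl x‖ ^ (2 * n) := by
        congr 1
        rw [← Real.rpow_natCast (‖tl x‖ ^ (t * m)) 2, ← Real.rpow_mul (norm_nonneg _),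
          ← Real.rpow_mul (norm_nonneg _), ← Real.rpow_natCast]
        congr 1
        rw [hκd]
        push_cast
        field_simp

/-- Near `φ`, the sections cut out the orbit of `φ`. -/
theorem eventually_ne_or_orbit (P : HParam C φ) (c : Chart φ (n + 1))
    (hc : ∀ j, c.t j = P.X j - algebraMap ℂ C.R (φ (P.X j))) (S : Finset C.R)
    (hcut : ∀ e, ∀ g ∈ C.A e, φ g = 0 → ∃ (N : ℕ) (h : C.R), φ h ≠ 0 ∧
      h * g ^ N ∈ Ideal.span (S : Set C.R)) :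
    ∀ᶠ χ : C.Pt in 𝓝 φ, (∃ s ∈ S, χ s ≠ 0) ∨ ∃ t : ℂ, t ≠ 0 ∧ GCone.tact t φ = χ := by
  choose N h hh hmem using fun i : Fin n => hcut _ _ (P.mem i.succ) (P.zero i)
  obtain ⟨T, hTd, hT0, hT⟩ := exists_slice P c hc
  have hev : ∀ᶠ χ : C.Pt in 𝓝 φ, ∀ i, χ (h i) ≠ 0 := by
    rw [eventually_all]
    intro i
    exact eventually_ne (hh i)
  filter_upwards [hev, c.near, c.tendsto_X.eventually hT] with χ h1 h2 h3
  by_cases hχ : ∃ s ∈ S, χ s ≠ 0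
  · exact Or.inl hχ
  push Not at hχ
  right
  have hz : ∀ s ∈ Ideal.span (S : Set C.R), χ s = 0 := by
    have : Ideal.span (S : Set C.R) ≤ RingHom.ker χ := by
      rw [Ideal.span_le]
      intro s hs
      exact hχ s hs
    exact this
  have hXz : ∀ i : Fin n, χ (P.X i.succ) = 0 := by
    intro i
    have h4 := hz _ (hmem i)
    rw [map_mul, map_pow] at h4
    exact eq_zero_of_pow_eq_zero ((mul_eq_zero.1 h4).resolve_left (h1 i))
  have hcoord : ∀ i : Fin n, c.X χ i.succ = 0 := by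
    intro i
    show χ (c.t i.succ) = 0
    rw [hc, map_sub, hXz i, P.zero i]
    simp
  have hTne := h3.1
  refine ⟨(T (c.X χ 0))⁻¹, inv_ne_zero hTne, ?_⟩
  have hsl : (sl fun i : Fin n => T (c.X χ 0) ^ P.d i.succ * c.X χ i.succ) = 0 := by
    rw [← sl_zero]
    congr 1
    funext i
    rw [hcoord i, mul_zero]
    rfl
  have h5 : ∀ s : C.R, GCone.tact (T (c.X χ 0))⁻¹ φ s = χ s := by
    intro s
    induction s using DirectSum.Decomposition.inductionOn C.A with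
    | zero => simp
    | homogeneous a =>
      rename_i i
      have h6 := h3.2 i a a.2
      rw [hsl, c.zero, h2.2] at h6
      rw [h6]
      show pact C.A _ φ (a : C.R) = _
      rw [pact_mem C.A _ _ a.2, inv_pow]
    | add a b ha hb => rw [map_add, map_add, ha, hb]
  exact AlgHom.ext h5

/-- **The generator from the sections.** -/
theorem gen_of_sections (hGE : GlobEnd) (hn : 1 ≤ n) (hφ : GCone.NV φ) (P : HParam C φ)
    (c : Chart φ (n + 1)) (hc : ∀ j, c.t j = P.X j - algebraMap ℂ C.R (φ (P.X j)))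
    {t : ℝ} (ht : (n : ℝ) / (n + 1) < t) {m : ℕ} (hm : 1 ≤ m) (S : Finset C.R)
    (hS : ∀ s ∈ S, s ∈ C.A m ∧ ∃ k : ℕ, t * m ≤ k ∧ s ∈ pI φ ^ k)
    (hcut : ∀ e, ∀ g ∈ C.A e, φ g = 0 → ∃ (N : ℕ) (h : C.R), φ h ≠ 0 ∧
      h * g ^ N ∈ Ideal.span (S : Set C.R)) : GCone.Gen (n + 1) φ := by
  have hn0 : (0 : ℝ) < n := by exact_mod_cast hn
  have ht0 : 0 < t := lt_trans (by positivity) ht
  have hm0 : (0 : ℝ) < m := by exact_mod_cast hm
  have hκ : 0 ≤ (n : ℝ) / (t * m) := by positivity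
  -- a nonzero section
  have hne : ∃ s ∈ S, s ≠ 0 := by
    by_contra hcon
    push Not at hcon
    obtain ⟨N, h, hh, hmem⟩ := hcut _ _ (P.mem (Fin.succ ⟨0, hn⟩)) (P.zero ⟨0, hn⟩)
    have h0 : Ideal.span (S : Set C.R) ≤ ⊥ := by
      rw [Ideal.span_le]
      intro s hs
      exact hcon s hs
    have h1 : h * P.X (Fin.succ ⟨0, hn⟩) ^ N = 0 := h0 hmem
    have h2 : h ≠ 0 := fun h => hh (by rw [h, map_zero])
    have h3 : P.X (Fin.succ ⟨0, hn⟩) = 0 :=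
      eq_zero_of_pow_eq_zero ((mul_eq_zero.1 h1).resolve_left h2)
    set x : Fin (n + 1) → ℂ := Pi.single (Fin.succ ⟨0, hn⟩) ((c.ρ / 2 : ℝ) : ℂ) with hx
    have hxb : x ∈ ball (0 : Fin (n + 1) → ℂ) c.ρ := by
      rw [mem_ball_zero_iff, hx, Pi.norm_single, Complex.norm_real, Real.norm_of_nonneg
        (half_pos c.ρ_pos).le]
      exact half_lt_self c.ρ_pos
    have h4 := ψ_X P c hc hxb (Fin.succ ⟨0, hn⟩)
    rw [h3, map_zero, map_zero, zero_add, hx, Pi.single_eq_same] at h4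
    have h5 : (c.ρ / 2 : ℝ) = 0 := by exact_mod_cast h4.symm
    have := c.ρ_pos
    linarith
  refine hGE n C (n + 1) φ hφ (oneW S (fun s hs => (hS s hs).1) hne hκ) ?_
    (not_intAt hn P c hc ht0 hm S hS hne hκ) ?_
  · rw [oneW_deg]
    have h1 : (n : ℝ) / (t * m) * m = n / t := by field_simp
    rw [h1, div_lt_iff₀ ht0]
    rw [div_lt_iff₀ (by positivity)] at ht
    push_cast
    linarith
  · have h1 : ∀ᶠ χ : C.Pt in 𝓝 φ, (∀ t : ℂ, t ≠ 0 → GCone.tact t φ ≠ χ) →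
        IntAt (n + 1) χ (oneW S (fun s hs => (hS s hs).1) hne hκ).val := by
      filter_upwards [eventually_ne_or_orbit P c hc S hcut, eventually_ne P.ne] with χ h2 h3 h4
      rcases h2 with ⟨s, hs, hsne⟩ | ⟨t, ht, hto⟩
      · exact intAt_of_ne ⟨P.d 0, P.d_pos, P.X 0, P.mem 0, h3⟩ S _ hne hκ hs hsne
      · exact absurd hto (h4 t ht)
    obtain ⟨F, ε, hε, hF⟩ := mem_nhds_iff_finset.1 h1
    exact ⟨F, ε, hε, hF⟩

end Vale.Agent.P271.Eq
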