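import Mathlib

/-!
# P271, equality case: the `ℂˣ`-action on points and the Euler derivation of a graded algebra
-/

open DirectSum

namespace Vale.Agent.P271.Eq

variable {R : Type*} [CommRing R] [Algebra ℂ R] (A : ℕ → Submodule ℂ R) [GradedAlgebra A]

/-- The point `t · ψ`. -/
noncomputable def actPt (t : ℂ) (ψ : R →ₐ[ℂ] ℂ) : R →ₐ[ℂ] ℂ :=
  (DirectSum.toAlgebra ℂ (fun i => A i) (fun i => (t ^ i) • (ψ.toLinearMap.comp (A i).subtype))
    (by
      show t ^ 0 • ψ ((1 : R)) = 1
      simp)
    (by
      intro i j a b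
      show t ^ (i + j) • ψ ((a : R) * (b : R)) = (t ^ i • ψ (a : R)) * (t ^ j • ψ (b : R))
      rw [map_mul, pow_add]
      simp only [smul_eq_mul]
      ring)).comp (DirectSum.decomposeAlgEquiv A).toAlgHom

theorem actPt_apply (t : ℂ) (ψ : R →ₐ[ℂ] ℂ) {i : ℕ} {s : R} (hs : s ∈ A i) :
    actPt A t ψ s = t ^ i * ψ s := by
  have h : DirectSum.decomposeAlgEquiv A s = DirectSum.of (fun i => A i) i ⟨s, hs⟩ := by
    show DirectSum.decompose A s = _
    rw [DirectSum.decompose_of_mem A hs]
  show (DirectSum.toModule ℂ ℕ ℂ (fun i => (t ^ i) • (ψ.toLinearMap.comp (A i).subtype)))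
    (DirectSum.decomposeAlgEquiv A s) = _
  rw [h]
  have h2 : DirectSum.of (fun i => A i) i ⟨s, hs⟩ =
      DirectSum.lof ℂ ℕ (fun i => A i) i ⟨s, hs⟩ := rfl
  rw [h2, DirectSum.toModule_lof]
  rfl

open Classical in
theorem actPt_eq_sum (t : ℂ) (ψ : R →ₐ[ℂ] ℂ) (s : R) :
    actPt A t ψ s = ∑ i ∈ (DirectSum.decompose A s).support,
      t ^ i * ψ (DirectSum.decompose A s i) := by
  conv_lhs => rw [← DirectSum.sum_support_decompose A s]
  rw [map_sum]
  exact Finset.sum_congr rfl fun i _ => actPt_apply A t ψ (DirectSum.decompose A s i).2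

/-- The Euler derivation. -/
noncomputable def eulerLin : R →ₗ[ℂ] R :=
  (DirectSum.toModule ℂ ℕ R (fun i => (i : ℂ) • (A i).subtype)).comp
    (DirectSum.decomposeLinearEquiv A).toLinearMap

theorem eulerLin_apply {i : ℕ} {s : R} (hs : s ∈ A i) : eulerLin A s = (i : ℂ) • s := by
  have h : DirectSum.decomposeLinearEquiv A s = DirectSum.lof ℂ ℕ (fun i => A i) i ⟨s, hs⟩ := by
    show DirectSum.decompose A s = _
    rw [DirectSum.decompose_of_mem A hs]
    rfl
  show (DirectSum.toModule ℂ ℕ R _) (DirectSum.decomposeLinearEquiv A s) = _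
  rw [h, DirectSum.toModule_lof]
  rfl

theorem eulerLin_mul (s u : R) : eulerLin A (s * u) = s * eulerLin A u + u * eulerLin A s := by
  classical
  induction s using DirectSum.Decomposition.inductionOn A with
  | zero => simp
  | homogeneous s =>
    rename_i i
    induction u using DirectSum.Decomposition.inductionOn A with
    | zero => simp
    | homogeneous u =>
      rename_i j
      rw [eulerLin_apply A (SetLike.mul_mem_graded s.2 u.2), eulerLin_apply A s.2,
        eulerLin_apply A u.2]
      push_cast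
      rw [add_smul, mul_smul_comm, mul_smul_comm, mul_comm (u : R) (s : R)]
      exact add_comm _ _
    | add u u' hu hu' =>
      rw [mul_add, map_add, hu, hu', map_add]
      ring
  | add s s' hs hs' =>
    rw [add_mul, map_add, hs, hs', map_add]
    ring

/-- The Euler derivation. -/
noncomputable def euler : Derivation ℂ R R :=
  Derivation.mk' (eulerLin A) fun a b => by
    rw [eulerLin_mul]
    simp only [smul_eq_mul]

theorem euler_apply {i : ℕ} {s : R} (hs : s ∈ A i) : euler A s = (i : ℂ) • s :=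
  eulerLin_apply A hs

end Vale.Agent.P271.Eq
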