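import Vale.Agent.P271.Eq.Slice
import Vale.Agent.P271.Eq.Graded
import Vale.Agent.P271.H879.Alg
import Vale.Agent.P271.H995.Kah

/-!
# P271, equality case: existence of homogeneous parameters
-/

open DirectSum

namespace Vale.Agent.P271.Eq

open Vale.Agent.P271.Sch

variable {n : ℕ} {C : GCone n} {φ : C.Pt}

/-- The square of the maximal ideal as a subspace. -/
noncomputable def sqS (φ : C.Pt) : Submodule ℂ C.R := (pI φ ^ 2).restrictScalars ℂ

/-- The class modulo the square. -/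
noncomputable def qm (φ : C.Pt) : C.R →ₗ[ℂ] C.R ⧸ sqS φ := (sqS φ).mkQ

theorem qm_eq_zero {s : C.R} : qm φ s = 0 ↔ s ∈ pI φ ^ 2 := by
  rw [qm, Submodule.mkQ_apply, Submodule.Quotient.mk_eq_zero]
  exact Iff.rfl

/-- Homogeneous elements vanishing at `φ`. -/
def Hs (φ : C.Pt) : Set C.R := {s | (∃ m, s ∈ C.A m) ∧ φ s = 0}

theorem euler_sq {s : C.R} (hs : s ∈ pI φ ^ 2) : φ (euler C.A s) = 0 := by
  rw [pow_two] at hs
  refine Submodule.mul_induction_on hs ?_ ?_
  · intro a ha b hb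
    rw [mem_pI] at ha hb
    rw [Derivation.leibniz]
    simp [ha, hb]
  · intro a b ha hb
    rw [map_add, map_add, ha, hb, add_zero]

/-- The Euler functional on the cotangent space. -/
noncomputable def vbar (φ : C.Pt) : C.R ⧸ sqS φ →ₗ[ℂ] ℂ :=
  (sqS φ).liftQ (φ.toLinearMap ∘ₗ (euler C.A).toLinearMap) fun s hs => by
    rw [LinearMap.mem_ker]
    exact euler_sq hs

theorem vbar_qm (s : C.R) : vbar φ (qm φ s) = φ (euler C.A s) := rfl

theorem vbar_Hs : Submodule.span ℂ (qm φ '' Hs φ) ≤ LinearMap.ker (vbar φ) := by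
  rw [Submodule.span_le]
  rintro _ ⟨s, ⟨⟨m, hm⟩, hs⟩, rfl⟩
  show vbar φ (qm φ s) = 0
  rw [vbar_qm, euler_apply C.A hm, map_smul, hs, smul_zero]

theorem pow_sub_mem (a : C.R) (k : ℕ) :
    a ^ (k + 1) - algebraMap ℂ C.R (φ a ^ (k + 1)) -
      ((k + 1 : ℕ) * φ a ^ k : ℂ) • (a - algebraMap ℂ C.R (φ a)) ∈ pI φ ^ 2 := by
  induction k with
  | zero => simp
  | succ k ih =>
    have h1 : a ^ (k + 1 + 1) - algebraMap ℂ C.R (φ a ^ (k + 1 + 1)) -
        (((k + 1 + 1 : ℕ) : ℂ) * φ a ^ (k + 1) : ℂ) • (a - algebraMap ℂ C.R (φ a)) =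
        a * (a ^ (k + 1) - algebraMap ℂ C.R (φ a ^ (k + 1)) -
      (((k + 1 : ℕ) : ℂ) * φ a ^ k : ℂ) • (a - algebraMap ℂ C.R (φ a))) +
        algebraMap ℂ C.R (((k + 1 : ℕ) : ℂ) * φ a ^ k) *
          ((a - algebraMap ℂ C.R (φ a)) * (a - algebraMap ℂ C.R (φ a))) := by
      simp only [Algebra.smul_def, map_mul, map_pow, map_natCast]
      push_cast
      ring
    rw [h1]
    refine Ideal.add_mem _ (Ideal.mul_mem_left _ _ ih) (Ideal.mul_mem_left _ _ ?_)
    rw [pow_two]
    exact Ideal.mul_mem_mul (φ_sub φ a) (φ_sub φ a)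

theorem qm_pow (a : C.R) (k : ℕ) :
    qm φ (a ^ (k + 1) - algebraMap ℂ C.R (φ a ^ (k + 1))) =
      ((k + 1 : ℕ) * φ a ^ k : ℂ) • qm φ (a - algebraMap ℂ C.R (φ a)) := by
  rw [← map_smul, ← sub_eq_zero, ← map_sub, qm_eq_zero]
  exact pow_sub_mem a k

/-- All classes are spanned by the class of `u - φ u` and the classes of homogeneous elements
vanishing at `φ`. -/
theorem qm_mem {d : ℕ} (hd : 0 < d) {u : C.R} (hu : u ∈ C.A d) (hφu : φ u ≠ 0) (s : C.R) :
    qm φ (s - algebraMap ℂ C.R (φ s)) ∈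
      Submodule.span ℂ {qm φ (u - algebraMap ℂ C.R (φ u))} ⊔ Submodule.span ℂ (qm φ '' Hs φ) := by
  classical
  induction s using DirectSum.Decomposition.inductionOn C.A with
  | zero => simp
  | homogeneous s =>
    rename_i m
    obtain ⟨s, hs⟩ := s
    show qm φ (s - algebraMap ℂ C.R (φ s)) ∈ _
    by_cases h0 : φ s = 0
    · rw [h0, map_zero, sub_zero]
      exact Submodule.mem_sup_right (Submodule.subset_span ⟨s, ⟨⟨m, hs⟩, h0⟩, rfl⟩)
    rcases Nat.eq_zero_or_pos m with hm | hm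
    · subst hm
      obtain ⟨c, hc⟩ := C.zero s hs
      rw [← hc, AlgHom.commutes]
      simp
    obtain ⟨d, rfl⟩ := Nat.exists_eq_succ_of_ne_zero hd.ne'
    obtain ⟨m, rfl⟩ := Nat.exists_eq_succ_of_ne_zero hm.ne'
    set c : ℂ := φ s ^ (d + 1) / φ u ^ (m + 1) with hc
    set w : C.R := s ^ (d + 1) - c • u ^ (m + 1) with hw
    have hw1 : w ∈ C.A ((d + 1) * (m + 1)) := by
      refine Submodule.sub_mem _ ?_ (Submodule.smul_mem _ _ ?_)
      · have := SetLike.pow_mem_graded (d + 1) hs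
        simpa [smul_eq_mul] using this
      · have := SetLike.pow_mem_graded (m + 1) hu
        rw [smul_eq_mul, mul_comm] at this
        exact this
    have hcu : c * φ u ^ (m + 1) = φ s ^ (d + 1) := by
      rw [hc]
      exact div_mul_cancel₀ _ (pow_ne_zero _ hφu)
    have hw2 : φ w = 0 := by
      rw [hw, map_sub, map_smul, map_pow, map_pow, smul_eq_mul, hcu, sub_self]
    have hw3 : w = (s ^ (d + 1) - algebraMap ℂ C.R (φ s ^ (d + 1))) -
        c • (u ^ (m + 1) - algebraMap ℂ C.R (φ u ^ (m + 1))) := by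
      rw [hw, smul_sub, Algebra.smul_def c (algebraMap ℂ C.R (φ u ^ (m + 1))), ← map_mul, hcu]
      ring
    have hw4 : qm φ w = ((d + 1 : ℕ) * φ s ^ d : ℂ) • qm φ (s - algebraMap ℂ C.R (φ s)) -
        c • (((m + 1 : ℕ) * φ u ^ m : ℂ) • qm φ (u - algebraMap ℂ C.R (φ u))) := by
      rw [hw3, map_sub, map_smul, qm_pow, qm_pow]
    have hne : ((d + 1 : ℕ) * φ s ^ d : ℂ) ≠ 0 :=
      mul_ne_zero (Nat.cast_ne_zero.2 (Nat.succ_ne_zero d)) (pow_ne_zero _ h0)
    have hw5 : qm φ (s - algebraMap ℂ C.R (φ s)) = ((d + 1 : ℕ) * φ s ^ d : ℂ)⁻¹ •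
        (qm φ w + c • (((m + 1 : ℕ) * φ u ^ m : ℂ) • qm φ (u - algebraMap ℂ C.R (φ u)))) := by
      rw [hw4, sub_add_cancel, smul_smul, inv_mul_cancel₀ hne, one_smul]
    rw [hw5]
    refine Submodule.smul_mem _ _ (Submodule.add_mem _ ?_ ?_)
    · exact Submodule.mem_sup_right (Submodule.subset_span ⟨w, ⟨⟨_, hw1⟩, hw2⟩, rfl⟩)
    · exact Submodule.mem_sup_left (Submodule.smul_mem _ _ (Submodule.smul_mem _ _
        (Submodule.subset_span rfl)))
  | add s s' hs hs' =>
    have h1 : s + s' - algebraMap ℂ C.R (φ (s + s')) =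
        (s - algebraMap ℂ C.R (φ s)) + (s' - algebraMap ℂ C.R (φ s')) := by
      rw [map_add, map_add]
      ring
    rw [h1, map_add]
    exact Submodule.add_mem _ hs hs'

/-- **Homogeneous parameters exist.** -/
theorem exists_hparam (hφ : GCone.NV φ) : Nonempty (HParam C φ) := by
  classical
  obtain ⟨d, hd, u, hu, hφu⟩ := hφ
  have hft := C.finiteType
  have hNoeth : IsNoetherianRing C.R := Algebra.FiniteType.isNoetherianRing ℂ C.R
  have hmax : (pI φ).IsMaximal := RingHom.ker_isMaximal_of_surjective (φ : C.R →+* ℂ)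
    fun c => ⟨algebraMap ℂ C.R c, by simp⟩
  obtain ⟨hreg, hdim⟩ := C.regular (pI φ) ⟨d, hd, u, hu, fun h => hφu h⟩
  obtain ⟨x, hx, hgen⟩ := H879.exists_parameters (pI φ) hreg hdim
  have hx0 : ∀ i, φ (x i) = 0 := hx
  -- the span of the parameters
  have hspan : ∀ s, φ s = 0 → qm φ s ∈ Submodule.span ℂ (Set.range fun i => qm φ (x i)) := by
    have hX : H995.Span φ x := by
      refine H995.span_of_regular φ x fun s hs => ?_
      obtain ⟨h, hh, hm⟩ := hgen s hs
      refine ⟨h, hh, ?_⟩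
      have : (fun j => x j - algebraMap ℂ C.R (φ (x j))) = x := by
        funext j
        rw [hx0 j, map_zero, sub_zero]
      rw [this]
      exact hm
    intro s hs
    obtain ⟨c, hc⟩ := hX s
    have h1 : qm φ s = ∑ j, c j • qm φ (x j) := by
      rw [← sub_eq_zero]
      have h2 : qm φ (s - algebraMap ℂ C.R (φ s) -
          ∑ j, c j • (x j - algebraMap ℂ C.R (φ (x j)))) = 0 := qm_eq_zero.2 hc
      rw [hs, map_zero, sub_zero, map_sub, map_sum] at h2
      convert h2 using 3 with j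
      rw [hx0 j, map_zero, sub_zero, map_smul]
    rw [h1]
    exact Submodule.sum_mem _ fun j _ => Submodule.smul_mem _ _ (Submodule.subset_span ⟨j, rfl⟩)
  set V := Submodule.span ℂ (Set.range fun i => qm φ (x i)) with hV
  set V' := Submodule.span ℂ (qm φ '' Hs φ) with hV'
  have hVfin : Module.Finite ℂ V := Module.Finite.span_of_finite ℂ (Set.finite_range _)
  have hV'V : V' ≤ V := by
    rw [hV', Submodule.span_le]
    rintro _ ⟨s, ⟨_, hs⟩, rfl⟩
    exact hspan s hs
  have hu1 : qm φ (u - algebraMap ℂ C.R (φ u)) ∈ V := hspan _ (φ_sub φ u)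
  have hu2 : qm φ (u - algebraMap ℂ C.R (φ u)) ∉ V' := by
    intro h
    have h1 : vbar φ (qm φ (u - algebraMap ℂ C.R (φ u))) = 0 := vbar_Hs h
    rw [vbar_qm, map_sub, Derivation.map_algebraMap, sub_zero, euler_apply C.A hu, map_smul,
      smul_eq_mul] at h1
    rcases mul_eq_zero.1 h1 with h2 | h2
    · exact hd.ne' (by exact_mod_cast h2)
    · exact hφu h2
  have hlt : V' < V := lt_of_le_of_ne hV'V fun h => hu2 (h ▸ hu1)
  have hV'fin : Module.Finite ℂ V' := Submodule.finiteDimensional_of_le hV'V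
  have hrk : Module.finrank ℂ V' ≤ n := by
    have h1 : Module.finrank ℂ V' < Module.finrank ℂ V := Submodule.finrank_lt_finrank_of_lt hlt
    have h2 : Module.finrank ℂ V ≤ n + 1 := by
      have := finrank_range_le_card (R := ℂ) (fun i => qm φ (x i))
      rw [Fintype.card_fin] at this
      exact this
    omega
  obtain ⟨f, hf, hfs, -⟩ := Submodule.exists_fun_fin_finrank_span_eq ℂ (qm φ '' Hs φ)
  choose g hg hgf using hf
  let Y : Fin n → C.R := fun i => if h : (i : ℕ) < Module.finrank ℂ V' then g ⟨i, h⟩ else 0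
  have hY : ∀ i, Y i ∈ Hs φ := by
    intro i
    by_cases h : (i : ℕ) < Module.finrank ℂ V'
    · simp only [Y, h, dif_pos]
      exact hg _
    · simp only [Y, h, dif_neg, not_false_eq_true]
      exact ⟨⟨0, Submodule.zero_mem _⟩, map_zero _⟩
  choose e he using fun i => (hY i).1
  have hYs : V' ≤ Submodule.span ℂ (Set.range fun i => qm φ (Y i)) := by
    rw [hV', ← hfs, Submodule.span_le]
    rintro _ ⟨i, rfl⟩
    refine Submodule.subset_span ⟨⟨i, lt_of_lt_of_le i.2 hrk⟩, ?_⟩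
    have hi : (i : ℕ) < Module.finrank ℂ V' := i.2
    have h5 : Y ⟨i, lt_of_lt_of_le i.2 hrk⟩ = g i := dif_pos hi
    show qm φ (Y ⟨i, lt_of_lt_of_le i.2 hrk⟩) = f i
    rw [h5]
    exact hgf i
  refine ⟨⟨Fin.cons u Y, Fin.cons d e, ?_, hd, hφu, fun i => (hY i).2, ?_⟩⟩
  · intro j
    refine Fin.cases ?_ (fun i => ?_) j
    · exact hu
    · exact he i
  set X : Fin (n + 1) → C.R := Fin.cons u Y with hX
  set I : Ideal C.R := Ideal.span (Set.range fun j => X j - algebraMap ℂ C.R (φ (X j))) with hI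
  have hI1 : ∀ j, X j - algebraMap ℂ C.R (φ (X j)) ∈ I := fun j => Ideal.subset_span ⟨j, rfl⟩
  have key : pI φ ≤ I ⊔ pI φ ^ 2 := by
    intro s hs
    have h1 := qm_mem hd hu hφu s
    rw [mem_pI.1 hs, map_zero, sub_zero] at h1
    have h2 : Submodule.span ℂ {qm φ (u - algebraMap ℂ C.R (φ u))} ⊔ V' ≤
        (I.restrictScalars ℂ).map (qm φ) := by
      refine sup_le ?_ (hYs.trans ?_)
      · rw [Submodule.span_singleton_le_iff_mem]
        exact ⟨_, hI1 0, rfl⟩
      · rw [Submodule.span_le]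
        rintro _ ⟨i, rfl⟩
        refine ⟨Y i, ?_, rfl⟩
        have h3 := hI1 i.succ
        have h4 : X i.succ = Y i := rfl
        rw [h4, (hY i).2, map_zero, sub_zero] at h3
        exact h3
    obtain ⟨a, ha, has⟩ := h2 h1
    have h3 : s - a ∈ pI φ ^ 2 := by
      rw [← qm_eq_zero, map_sub, has, sub_self]
    have h4 : s = a + (s - a) := by ring
    rw [h4]
    exact Submodule.add_mem_sup ha h3
  obtain ⟨r, hr, hr'⟩ := Submodule.exists_sub_one_mem_and_smul_le_of_fg_of_le_sup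
    (I := pI φ) (N := I) (N' := pI φ) (P := pI φ) (IsNoetherian.noetherian _) le_rfl (by
      rw [smul_eq_mul, ← pow_two]
      exact key)
  intro s hs
  refine ⟨r, ?_, ?_⟩
  · have : φ (r - 1) = 0 := hr
    rw [map_sub, map_one, sub_eq_zero] at this
    rw [this]
    exact one_ne_zero
  · exact hr' (Submodule.smul_mem_pointwise_smul s r _ hs)

end Vale.Agent.P271.Eq
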