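import Mathlib
import Vale.Agent.P271.Eq.Forms
import Vale.Agent.P271.Eq.Codef

/-!
# P271, equality case: orders of vanishing, Taylor polynomials, the scaling limit
-/

open MvPolynomial Filter Topology Asymptotics

namespace Vale.Agent.P271.Eq

variable {n : ℕ}

/-- A polynomial which is `O(|x|^k)` has no terms of degree `< k`. -/
theorem poly_coeff_eq_zero {P : Polynomial ℂ} {k : ℕ}
    (h : (fun x : ℂ => P.eval x) =O[𝓝 0] fun x => ‖x‖ ^ k) {i : ℕ} (hi : i < k) :
    P.coeff i = 0 := by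
  by_contra hne
  have hP : P ≠ 0 := by
    rintro rfl
    simp at hne
  obtain ⟨Q, hQ, hQ0⟩ := Polynomial.exists_eq_pow_rootMultiplicity_mul_and_not_dvd P hP 0
  set r := Polynomial.rootMultiplicity 0 P with hr
  rw [Polynomial.C_0, sub_zero] at hQ hQ0
  have hri : r ≤ i := by
    by_contra hlt
    push Not at hlt
    apply hne
    rw [hQ, Polynomial.coeff_X_pow_mul', if_neg (by omega)]
  have hQ1 : Q.eval 0 ≠ 0 := by
    intro h0
    exact hQ0 (Polynomial.X_dvd_iff.2 (by rwa [Polynomial.coeff_zero_eq_eval_zero]))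
  obtain ⟨C, hC⟩ := h.bound
  have h1 : ∀ᶠ x : ℂ in 𝓝[≠] 0, ‖Q.eval x‖ ≤ C * ‖x‖ ^ (k - r) := by
    filter_upwards [nhdsWithin_le_nhds hC, self_mem_nhdsWithin] with x hx hx0
    have hx0' : 0 < ‖x‖ := norm_pos_iff.2 hx0
    rw [hQ, Polynomial.eval_mul, Polynomial.eval_pow, Polynomial.eval_X, norm_mul, norm_pow,
      Real.norm_of_nonneg (by positivity)] at hx
    have h2 : ‖x‖ ^ k = ‖x‖ ^ r * ‖x‖ ^ (k - r) := by
      rw [← pow_add]
      congr 1
      omega
    rw [h2] at hx
    have h3 : ‖x‖ ^ r * ‖Q.eval x‖ ≤ ‖x‖ ^ r * (C * ‖x‖ ^ (k - r)) := by linarith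
    exact le_of_mul_le_mul_left h3 (by positivity)
  have h2 : Tendsto (fun x : ℂ => ‖Q.eval x‖) (𝓝[≠] 0) (𝓝 ‖Q.eval 0‖) :=
    ((Q.continuous.norm).tendsto 0).mono_left nhdsWithin_le_nhds
  have h3 : Tendsto (fun x : ℂ => C * ‖x‖ ^ (k - r)) (𝓝[≠] 0) (𝓝 0) := by
    have h4 : Tendsto (fun x : ℂ => C * ‖x‖ ^ (k - r)) (𝓝 0) (𝓝 (C * ‖(0:ℂ)‖ ^ (k - r))) := by
      have : Continuous fun x : ℂ => C * ‖x‖ ^ (k - r) := by fun_prop
      exact this.tendsto 0
    rw [norm_zero, zero_pow (by omega), mul_zero] at h4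
    exact h4.mono_left nhdsWithin_le_nhds
  have h4 := le_of_tendsto_of_tendsto h2 h3 h1
  exact hQ1 (norm_le_zero_iff.1 h4)

theorem eval_smul_of_isHomogeneous {q : MvPolynomial (Fin n) ℂ} {k : ℕ} (hq : q.IsHomogeneous k)
    (c : ℂ) (x : Fin n → ℂ) : eval (c • x) q = c ^ k * eval x q := by
  rw [eval_eq, eval_eq, Finset.mul_sum]
  refine Finset.sum_congr rfl fun d hd => ?_
  have h1 : ∑ i ∈ d.support, d i = k := by
    have h0 := hq (mem_support_iff.1 hd)
    have h1 : Finsupp.degree d = k := by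
      rw [Finsupp.degree_eq_weight_one]
      exact h0
    rw [← h1, Finsupp.degree_apply]
  have h2 : ∏ i ∈ d.support, (c • x) i ^ d i = c ^ k * ∏ i ∈ d.support, x i ^ d i := by
    rw [← h1, ← Finset.prod_pow_eq_pow_sum, ← Finset.prod_mul_distrib]
    refine Finset.prod_congr rfl fun i _ => ?_
    rw [Pi.smul_apply, smul_eq_mul, mul_pow]
  rw [h2]
  ring

/-- A polynomial which is `O(‖x‖^k)` has no terms of degree `< k`. -/
theorem coeff_eq_zero_of_isBigO {F : MvPolynomial (Fin n) ℂ} {k : ℕ}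
    (h : (fun x : Fin n → ℂ => eval x F) =O[𝓝 0] fun x => ‖x‖ ^ k) (d : Fin n →₀ ℕ)
    (hd : d.degree < k) : coeff d F = 0 := by
  classical
  have key : ∀ i < k, homogeneousComponent i F = 0 := by
    intro i hi
    refine MvPolynomial.funext fun x => ?_
    rw [map_zero]
    let P : Polynomial ℂ := ∑ j ∈ Finset.range (F.totalDegree + 1),
      Polynomial.C (eval x (homogeneousComponent j F)) * Polynomial.X ^ j
    have hP : ∀ c : ℂ, P.eval c = eval (c • x) F := by
      intro c
      conv_rhs => rw [← sum_homogeneousComponent F]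
      rw [map_sum, Polynomial.eval_finsetSum]
      refine Finset.sum_congr rfl fun j _ => ?_
      rw [eval_smul_of_isHomogeneous (homogeneousComponent_isHomogeneous j F), Polynomial.eval_mul,
        Polynomial.eval_C, Polynomial.eval_pow, Polynomial.eval_X, mul_comm]
    have h1 : (fun c : ℂ => P.eval c) =O[𝓝 0] fun c => ‖c‖ ^ k := by
      have h2 : Tendsto (fun c : ℂ => c • x) (𝓝 0) (𝓝 0) := by
        have : Continuous fun c : ℂ => c • x := by fun_prop
        simpa using this.tendsto 0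
      have h3 := h.comp_tendsto h2
      refine (h3.congr_left (f₂ := fun c => P.eval c) fun c => (hP c).symm).trans ?_
      refine IsBigO.of_bound (‖x‖ ^ k) (Eventually.of_forall fun c => ?_)
      simp only [Function.comp_apply, norm_smul, mul_pow, norm_mul, norm_pow, norm_norm]
      rw [mul_comm]
    have h2 := poly_coeff_eq_zero h1 hi
    simp only [P, Polynomial.finsetSum_coeff, Polynomial.coeff_C_mul_X_pow] at h2
    rw [Finset.sum_ite_eq] at h2
    by_cases hF : i ∈ Finset.range (F.totalDegree + 1)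
    · rwa [if_pos hF] at h2
    · rw [homogeneousComponent_eq_zero _ _ (by simpa using hF), map_zero]
  have h1 := congrArg (coeff d) (key _ hd)
  rw [coeff_homogeneousComponent, if_pos rfl, coeff_zero] at h1
  exact h1

theorem eval_trans (ξ x : Fin n → ℂ) (q : MvPolynomial (Fin n) ℂ) :
    eval x (trans ξ q) = eval (x + ξ) q := by
  have h : (aeval x : MvPolynomial (Fin n) ℂ →ₐ[ℂ] ℂ).comp (trans ξ) = aeval (x + ξ) := by
    ext i
    simp [trans]
  have h2 := congrArg (fun f => f q) h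
  simpa [aeval_eq_eval] using h2

/-- `q = O(‖x - ξ‖^a)` near `ξ` implies that `q` vanishes to order `≥ a` at `ξ`. -/
theorem mem_vanAt_of_isBigO {q : MvPolynomial (Fin n) ℂ} {ξ : Fin n → ℂ} {a : ℕ}
    (h : (fun x : Fin n → ℂ => eval x q) =O[𝓝 ξ] fun x => ‖x - ξ‖ ^ a) : q ∈ vanAt ξ a := by
  intro d hd
  refine coeff_eq_zero_of_isBigO (k := a) ?_ d hd
  have h2 : Tendsto (fun x : Fin n → ℂ => x + ξ) (𝓝 0) (𝓝 ξ) := by
    have : Continuous fun x : Fin n → ℂ => x + ξ := by fun_prop
    simpa using this.tendsto 0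
  have h3 := h.comp_tendsto h2
  refine (h3.congr_left fun x => ?_).congr_right fun x => ?_
  · exact (eval_trans ξ x q).symm
  · simp

/-- The polynomial of a multilinear map. -/
noncomputable def mvp {j : ℕ} (p : ContinuousMultilinearMap ℂ (fun _ : Fin j => Fin n → ℂ) ℂ) :
    MvPolynomial (Fin n) ℂ :=
  ∑ i : Fin j → Fin n, C (p fun a => Pi.single (i a) 1) * ∏ a, X (i a)

theorem eval_mvp {j : ℕ} (p : ContinuousMultilinearMap ℂ (fun _ : Fin j => Fin n → ℂ) ℂ)
    (x : Fin n → ℂ) : eval x (mvp p) = p fun _ => x := by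
  classical
  have hx : (fun _ : Fin j => x) = fun _ => ∑ b : Fin n, x b • (Pi.single b (1:ℂ) : Fin n → ℂ) := by
    funext _
    funext b
    simp [Finset.sum_apply, Pi.single_apply]
  rw [hx, p.map_sum, mvp, map_sum]
  refine Finset.sum_congr rfl fun i _ => ?_
  rw [p.map_smul_univ (fun a => x (i a)) (fun a => Pi.single (i a) (1:ℂ))]
  simp [mul_comm]

theorem mvp_isHomogeneous {j : ℕ}
    (p : ContinuousMultilinearMap ℂ (fun _ : Fin j => Fin n → ℂ) ℂ) : (mvp p).IsHomogeneous j := by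
  refine IsHomogeneous.sum _ _ _ fun i _ => ?_
  have h1 : (∏ a : Fin j, X (i a) : MvPolynomial (Fin n) ℂ).IsHomogeneous (∑ _a : Fin j, 1) :=
    IsHomogeneous.prod _ _ _ fun a _ => isHomogeneous_X ℂ (i a)
  simp only [Finset.sum_const, Finset.card_univ, Fintype.card_fin, smul_eq_mul, mul_one] at h1
  have h2 := (isHomogeneous_C (Fin n) (p fun a => Pi.single (i a) 1)).mul h1
  rwa [zero_add] at h2

/-- Taylor polynomial of degree `k` of an analytic function which is `O(‖x‖^k)`. -/
theorem exists_taylor {f : (Fin n → ℂ) → ℂ} (hf : AnalyticAt ℂ f 0) {k : ℕ}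
    (hk : f =O[𝓝 0] fun x => ‖x‖ ^ k) :
    ∃ q ∈ homogeneousSubmodule (Fin n) ℂ k,
      (fun x => f x - eval x q) =O[𝓝 0] fun x : Fin n → ℂ => ‖x‖ ^ (k + 1) := by
  obtain ⟨p, hp⟩ := hf
  have h1 := hp.isBigO_sub_partialSum_pow (k + 1)
  simp only [zero_add] at h1
  let F : MvPolynomial (Fin n) ℂ := ∑ j ∈ Finset.range (k + 1), mvp (p j)
  have hF : ∀ x, eval x F = p.partialSum (k + 1) x := by
    intro x
    rw [map_sum, FormalMultilinearSeries.partialSum]
    exact Finset.sum_congr rfl fun j _ => eval_mvp _ _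
  have h2 : (fun x => f x - eval x F) =O[𝓝 0] fun x : Fin n → ℂ => ‖x‖ ^ (k + 1) :=
    h1.congr_left fun x => by rw [hF]
  have h3 : (fun x : Fin n → ℂ => eval x F) =O[𝓝 0] fun x => ‖x‖ ^ k := by
    have h4 := hk.sub (h2.trans (pow_isBigO (Nat.le_succ k)))
    exact h4.congr_left fun x => by ring
  have h4 : F = mvp (p k) := by
    ext d
    have hc : ∀ j, j ≠ d.degree → coeff d (mvp (p j)) = 0 := by
      intro j hj
      refine (mvp_isHomogeneous (p j)).coeff_eq_zero ?_
      exact fun h => hj h.symm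
    rcases lt_trichotomy d.degree k with h | h | h
    · rw [coeff_eq_zero_of_isBigO h3 d h, hc k (by omega)]
    · simp only [F, coeff_sum]
      rw [Finset.sum_range_succ, Finset.sum_eq_zero, zero_add]
      intro j hj
      rw [Finset.mem_range] at hj
      exact hc j (by omega)
    · simp only [F, coeff_sum]
      rw [hc k (by omega), Finset.sum_eq_zero]
      intro j hj
      rw [Finset.mem_range] at hj
      exact hc j (by omega)
  refine ⟨mvp (p k), mvp_isHomogeneous _, ?_⟩
  rw [← h4]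
  exact h2

end Vale.Agent.P271.Eq
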