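import Mathlib
import Vale.Agent.P271.Eq.Local

/-!
# P271, equality case: the scaling limit and the gradient lemma
-/

open MvPolynomial Filter Topology Asymptotics Metric

namespace Vale.Agent.P271.Eq

variable {n : ℕ}

/-- Schwarz lemma of order `a`. -/
theorem schwarz_order {g : (Fin n → ℂ) → ℂ} {c : Fin n → ℂ} {M : ℝ} {a : ℕ}
    (hd : DifferentiableOn ℂ g (ball c 1)) (hM : ∀ x ∈ ball c 1, ‖g x‖ ≤ M)
    (ha : g =O[𝓝 c] fun x => ‖x - c‖ ^ a) {x : Fin n → ℂ} (hx : x ∈ ball c 1) :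
    ‖g x‖ ≤ M * ‖x - c‖ ^ a := by
  rcases Nat.eq_zero_or_pos a with rfl | hpos
  · simpa using hM x hx
  obtain ⟨b, rfl⟩ : ∃ b, a = b + 1 := ⟨a - 1, by omega⟩
  have hc : g c = 0 := by
    obtain ⟨C, hC⟩ := ha.bound
    have := hC.self_of_nhds
    simpa using this
  have hlit : (g · - g c) =o[𝓝 c] fun w => ‖w - c‖ ^ b := by
    simp only [hc, sub_zero]
    refine ha.trans_isLittleO ?_
    have h1 : (fun w : Fin n → ℂ => ‖w - c‖) =o[𝓝 c] fun _ => (1 : ℝ) := by
      rw [isLittleO_one_iff]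
      have : Continuous fun w : Fin n → ℂ => ‖w - c‖ := by fun_prop
      simpa using this.tendsto c
    have h2 := (isBigO_refl (fun w : Fin n → ℂ => ‖w - c‖ ^ b) (𝓝 c)).mul_isLittleO h1
    simpa [pow_succ] using h2
  have hmaps : Set.MapsTo g (ball c 1) (closedBall (g c) M) := by
    intro w hw
    rw [hc, mem_closedBall_zero_iff]
    exact hM w hw
  have h := Complex.dist_le_mul_div_pow_of_mapsTo_ball_of_isLittleO hd hmaps hlit hx
  rw [hc, dist_zero_right, div_one, dist_eq_norm] at h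
  exact h

/-- **The scaling limit.**  `f` is holomorphic near `0`, `q` is its initial form of degree `k`
and `f` vanishes to order `≥ a` at the points `y j → 0` whose directions converge to `ξ`; then `q`
vanishes to order `≥ a` at `ξ`. -/
theorem scaling_limit {f : (Fin n → ℂ) → ℂ} {r : ℝ} (hr : 0 < r)
    (hf : DifferentiableOn ℂ f (ball 0 r)) {k a : ℕ} {q : MvPolynomial (Fin n) ℂ}
    (hq : q ∈ homogeneousSubmodule (Fin n) ℂ k)
    (hfq : (fun x => f x - eval x q) =O[𝓝 0] fun x : Fin n → ℂ => ‖x‖ ^ (k + 1))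
    {y : ℕ → Fin n → ℂ} {ξ : Fin n → ℂ} (hy : Tendsto y atTop (𝓝 0)) (hy0 : ∀ j, y j ≠ 0)
    (hξ : Tendsto (fun j => ((‖y j‖ : ℂ))⁻¹ • y j) atTop (𝓝 ξ))
    (ha : ∀ j, f =O[𝓝 (y j)] fun x => ‖x - y j‖ ^ a) : q ∈ vanAt ξ a := by
  refine mem_vanAt_of_isBigO ?_
  obtain ⟨C, hC⟩ := hfq.bound
  rw [Metric.eventually_nhds_iff] at hC
  obtain ⟨ρ, hρ, hC⟩ := hC
  -- bound of `q` on the ball of radius `2`
  obtain ⟨M₀, hM₀⟩ : ∃ M₀, ∀ x ∈ closedBall (0 : Fin n → ℂ) 2, ‖eval x q‖ ≤ M₀ := by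
    have hcont : Continuous fun x : Fin n → ℂ => eval x q := MvPolynomial.continuous_eval q
    obtain ⟨M₀, h⟩ := (isCompact_closedBall (0 : Fin n → ℂ) 2).exists_bound_of_continuousOn
      hcont.continuousOn
    exact ⟨M₀, h⟩
  set C' : ℝ := |C| * 2 ^ (k + 1) with hC'
  have hC'0 : 0 ≤ C' := by positivity
  set M : ℝ := M₀ + C' with hM
  have hτ : Tendsto (fun j => ‖y j‖) atTop (𝓝 0) := by simpa using hy.norm
  have hsmall : ∀ᶠ j in atTop, ‖y j‖ < min (min (r / 2) (ρ / 2)) 1 :=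
    hτ.eventually_lt_const (by positivity)
  -- the estimate for the rescaled functions
  have key : ∀ᶠ j in atTop, ∀ x ∈ ball (((‖y j‖ : ℂ))⁻¹ • y j) 1,
      ‖eval x q‖ ≤ M * ‖x - ((‖y j‖ : ℂ))⁻¹ • y j‖ ^ a + C' * ‖y j‖ := by
    filter_upwards [hsmall] with j hj x hx
    set τ : ℝ := ‖y j‖ with hτdef
    have hτ0 : 0 < τ := norm_pos_iff.2 (hy0 j)
    have hτC : (τ : ℂ) ≠ 0 := by exact_mod_cast hτ0.ne'
    have hτr : τ < r / 2 := lt_of_lt_of_le hj ((min_le_left _ _).trans (min_le_left _ _))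
    have hτρ : τ < ρ / 2 := lt_of_lt_of_le hj ((min_le_left _ _).trans (min_le_right _ _))
    have hτ1 : τ < 1 := lt_of_lt_of_le hj (min_le_right _ _)
    set ξj : Fin n → ℂ := (τ : ℂ)⁻¹ • y j with hξj
    have hξjn : ‖ξj‖ = 1 := by
      rw [hξj, norm_smul, norm_inv, Complex.norm_real, Real.norm_of_nonneg hτ0.le, ← hτdef]
      exact inv_mul_cancel₀ hτ0.ne'
    have hball : ∀ w ∈ ball ξj 1, ‖w‖ < 2 := by
      intro w hw
      rw [mem_ball_iff_norm] at hw
      calc ‖w‖ = ‖(w - ξj) + ξj‖ := by rw [sub_add_cancel]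
        _ ≤ ‖w - ξj‖ + ‖ξj‖ := norm_add_le _ _
        _ < 1 + 1 := by rw [hξjn]; linarith
        _ = 2 := by norm_num
    have hnorm : ∀ w : Fin n → ℂ, ‖(τ : ℂ) • w‖ = τ * ‖w‖ := by
      intro w
      rw [norm_smul, Complex.norm_real, Real.norm_of_nonneg hτ0.le]
    -- the rescaled function
    let g : (Fin n → ℂ) → ℂ := fun w => f ((τ : ℂ) • w) * ((τ : ℂ) ^ k)⁻¹
    have hgq : ∀ w ∈ ball ξj 1, ‖g w - eval w q‖ ≤ C' * τ := by
      intro w hw
      have h1 : dist ((τ : ℂ) • w) 0 < ρ := by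
        rw [dist_zero_right, hnorm]
        nlinarith [hball w hw]
      have h2 := hC h1
      rw [eval_smul_of_isHomogeneous ((mem_homogeneousSubmodule _ _).1 hq)] at h2
      have h3 : g w - eval w q = (f ((τ : ℂ) • w) - (τ : ℂ) ^ k * eval w q) * ((τ : ℂ) ^ k)⁻¹ := by
        simp only [g]
        field_simp
      rw [h3, norm_mul]
      have h4 : ‖((τ : ℂ) ^ k)⁻¹‖ = (τ ^ k)⁻¹ := by
        rw [norm_inv, norm_pow, Complex.norm_real, Real.norm_of_nonneg hτ0.le]
      rw [h4]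
      have h5 : ‖‖(τ : ℂ) • w‖ ^ (k + 1)‖ ≤ τ ^ (k + 1) * 2 ^ (k + 1) := by
        rw [Real.norm_of_nonneg (by positivity), hnorm, mul_pow]
        have := (hball w hw).le
        gcongr
      have h6 : ‖f ((τ : ℂ) • w) - (τ : ℂ) ^ k * eval w q‖ ≤ |C| * (τ ^ (k + 1) * 2 ^ (k + 1)) := by
        refine h2.trans ?_
        refine (mul_le_mul_of_nonneg_right (le_abs_self C) (norm_nonneg _)).trans ?_
        exact mul_le_mul_of_nonneg_left h5 (abs_nonneg _)
      calc ‖f ((τ : ℂ) • w) - (τ : ℂ) ^ k * eval w q‖ * (τ ^ k)⁻¹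
          ≤ |C| * (τ ^ (k + 1) * 2 ^ (k + 1)) * (τ ^ k)⁻¹ := by gcongr
        _ = C' * τ := by
            rw [hC', pow_succ τ k]
            field_simp
    have hgM : ∀ w ∈ ball ξj 1, ‖g w‖ ≤ M := by
      intro w hw
      have h1 := hgq w hw
      have h2 := hM₀ w (by rw [mem_closedBall_zero_iff]; exact (hball w hw).le)
      calc ‖g w‖ = ‖(g w - eval w q) + eval w q‖ := by rw [sub_add_cancel]
        _ ≤ ‖g w - eval w q‖ + ‖eval w q‖ := norm_add_le _ _
        _ ≤ C' * τ + M₀ := add_le_add h1 h2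
        _ ≤ C' * 1 + M₀ := by gcongr
        _ = M := by rw [hM]; ring
    have hgd : DifferentiableOn ℂ g (ball ξj 1) := by
      refine DifferentiableOn.mul_const ?_ _
      refine hf.comp (by fun_prop) ?_
      intro w hw
      rw [mem_ball_zero_iff, hnorm]
      nlinarith [hball w hw]
    have hga : g =O[𝓝 ξj] fun w => ‖w - ξj‖ ^ a := by
      have h1 : Tendsto (fun w : Fin n → ℂ => (τ : ℂ) • w) (𝓝 ξj) (𝓝 (y j)) := by
        have h2 : Continuous fun w : Fin n → ℂ => (τ : ℂ) • w := by fun_prop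
        have h3 := h2.tendsto ξj
        rwa [hξj, smul_inv_smul₀ hτC] at h3
      have h2 := (ha j).comp_tendsto h1
      have h3 : (fun w : Fin n → ℂ => ‖(τ : ℂ) • w - y j‖ ^ a) =O[𝓝 ξj] fun w => ‖w - ξj‖ ^ a := by
        refine IsBigO.of_bound (τ ^ a) (Eventually.of_forall fun w => ?_)
        have h4 : (τ : ℂ) • w - y j = (τ : ℂ) • (w - ξj) := by
          rw [smul_sub, hξj, smul_inv_smul₀ hτC]
        rw [h4, hnorm, mul_pow, norm_mul, norm_pow, norm_pow, norm_norm]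
      have h5 := h2.trans h3
      have h6 := h5.const_mul_left (((τ : ℂ) ^ k)⁻¹)
      refine h6.congr_left fun w => ?_
      simp only [g, Function.comp_apply]
      ring
    have h1 := schwarz_order hgd hgM hga hx
    have h2 := hgq x hx
    calc ‖eval x q‖ = ‖g x - (g x - eval x q)‖ := by rw [sub_sub_cancel]
      _ ≤ ‖g x‖ + ‖g x - eval x q‖ := norm_sub_le _ _
      _ ≤ M * ‖x - ξj‖ ^ a + C' * τ := add_le_add h1 h2
  -- pass to the limit
  have hlim : ∀ x ∈ ball ξ 1, ‖eval x q‖ ≤ M * ‖x - ξ‖ ^ a := by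
    intro x hx
    have h1 : ∀ᶠ j in atTop, x ∈ ball (((‖y j‖ : ℂ))⁻¹ • y j) 1 := by
      have h2 : Tendsto (fun j => dist x (((‖y j‖ : ℂ))⁻¹ • y j)) atTop (𝓝 (dist x ξ)) :=
        tendsto_const_nhds.dist hξ
      exact h2.eventually_lt_const hx
    have h2 : ∀ᶠ j in atTop, ‖eval x q‖ ≤
        M * ‖x - ((‖y j‖ : ℂ))⁻¹ • y j‖ ^ a + C' * ‖y j‖ := by
      filter_upwards [key, h1] with j hj hj1
      exact hj x hj1
    have h3 : Tendsto (fun j => M * ‖x - ((‖y j‖ : ℂ))⁻¹ • y j‖ ^ a + C' * ‖y j‖) atTop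
        (𝓝 (M * ‖x - ξ‖ ^ a + C' * 0)) := by
      refine Tendsto.add ?_ (hτ.const_mul C')
      refine Tendsto.const_mul M ?_
      exact ((tendsto_const_nhds.sub hξ).norm).pow a
    have h4 := ge_of_tendsto h3 h2
    simpa using h4
  refine IsBigO.of_bound M ?_
  filter_upwards [ball_mem_nhds ξ one_pos] with x hx
  rw [norm_pow, norm_norm]
  exact hlim x hx

/-- **The gradient lemma.** -/
theorem isBigO_of_gradient {f : (Fin n → ℂ) → ℂ} {y : Fin n → ℂ}
    (hf : ∀ᶠ x in 𝓝 y, DifferentiableAt ℂ f x) (hy : f y = 0) {b : ℕ} {T : (Fin n → ℂ) → ℝ}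
    (hT : T =O[𝓝 y] fun x => ‖x - y‖ ^ b) {C : ℝ}
    (hC : ∀ᶠ x in 𝓝 y, ‖fderiv ℂ f x‖ ≤ C * (T x + ‖f x‖)) :
    f =O[𝓝 y] fun x => ‖x - y‖ ^ (b + 1) := by
  have hpow : ∀ {c d : ℕ}, c ≤ d → (fun x : Fin n → ℂ => ‖x - y‖ ^ d) =O[𝓝 y] fun x => ‖x - y‖ ^ c := by
    intro c d hcd
    refine IsBigO.of_bound 1 ?_
    filter_upwards [ball_mem_nhds y one_pos] with x hx
    rw [mem_ball_iff_norm] at hx
    rw [one_mul, Real.norm_of_nonneg (by positivity), Real.norm_of_nonneg (by positivity)]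
    exact pow_le_pow_of_le_one (norm_nonneg _) hx.le hcd
  have key : ∀ c ≤ b + 1, f =O[𝓝 y] fun x => ‖x - y‖ ^ c := by
    intro c
    induction c with
    | zero =>
      intro _
      have h1 : ContinuousAt f y := (hf.self_of_nhds).continuousAt
      simpa using h1.isBigO_one ℝ
    | succ c ih =>
      intro hc
      have h1 := ih (by omega)
      have h2 : (fun x => C * (T x + ‖f x‖)) =O[𝓝 y] fun x => ‖x - y‖ ^ c :=
        ((hT.trans (hpow (by omega))).add h1.norm_left).const_mul_left C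
      obtain ⟨D, hD⟩ := h2.bound
      have hall : ∀ᶠ x in 𝓝 y, DifferentiableAt ℂ f x ∧ ‖fderiv ℂ f x‖ ≤ |D| * ‖x - y‖ ^ c := by
        filter_upwards [hf, hC, hD] with x h3 h4 h5
        refine ⟨h3, h4.trans ((le_abs_self _).trans ?_)⟩
        rw [← Real.norm_eq_abs]
        refine h5.trans ?_
        rw [norm_pow, norm_norm]
        exact mul_le_mul_of_nonneg_right (le_abs_self D) (by positivity)
      rw [Metric.eventually_nhds_iff] at hall
      obtain ⟨ρ, hρ, hall⟩ := hall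
      refine IsBigO.of_bound |D| ?_
      filter_upwards [ball_mem_nhds y hρ] with x hx
      have hxy : dist x y < ρ := hx
      have hs : ∀ w ∈ closedBall y (dist x y), DifferentiableAt ℂ f w ∧
          ‖fderiv ℂ f w‖ ≤ |D| * ‖x - y‖ ^ c := by
        intro w hw
        rw [mem_closedBall] at hw
        obtain ⟨h3, h4⟩ := hall (lt_of_le_of_lt hw hxy)
        refine ⟨h3, h4.trans ?_⟩
        rw [← dist_eq_norm, ← dist_eq_norm]
        gcongr
      have h3 := (convex_closedBall y (dist x y)).norm_image_sub_le_of_norm_fderiv_le (𝕜 := ℂ)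
        (f := f) (fun w hw => (hs w hw).1) (fun w hw => (hs w hw).2)
        (mem_closedBall_self dist_nonneg) (show x ∈ closedBall y (dist x y) by
          rw [mem_closedBall])
      rw [hy, sub_zero] at h3
      rw [norm_pow, norm_norm, pow_succ, ← mul_assoc]
      exact h3
  exact key (b + 1) le_rfl

end Vale.Agent.P271.Eq
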