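import Mathlib
import Vale.Agent.P271.Eq.Scale
import Vale.Agent.P271.Eq.Asym

/-!
# P271, equality case: the local theorem

`V m` are finite dimensional spaces of functions near `0 ∈ ℂⁿ`, with first order operators
`θ i : V m → V (m + M₁)` which control the gradient.  If all the elements of `V m` of order
`≥ t m` at `0` (`t < 1`) vanish at points `y j → 0`, `y j ≠ 0`, then the number of conditions
imposed by orders of vanishing at `0` has a defect of the order `m ^ (n + 1)`.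
-/

open MvPolynomial Filter Topology Asymptotics Metric

namespace Vale.Agent.P271.Eq

variable {n : ℕ} {V : ℕ → Type*} [∀ m, AddCommGroup (V m)] [∀ m, Module ℂ (V m)]
  {I : Type*} {M₁ : ℕ}

/-- All iterated `θ`-derivatives of length `< b` vanish at `y`. -/
def AllVan (ι : ∀ m, V m →ₗ[ℂ] ((Fin n → ℂ) → ℂ)) (θ : I → ∀ m, V m → V (m + M₁))
    (y : Fin n → ℂ) : ℕ → ∀ m, V m → Prop
  | 0, _, _ => True
  | b + 1, m, v => ι m v y = 0 ∧ ∀ i, AllVan ι θ y b (m + M₁) (θ i m v)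

variable (ι : ∀ m, V m →ₗ[ℂ] ((Fin n → ℂ) → ℂ)) (θ : I → ∀ m, V m → V (m + M₁))

theorem isBigO_of_allVan [Fintype I] {r : ℝ}
    (hd : ∀ m v, DifferentiableOn ℂ (ι m v) (ball 0 r))
    (hgrad : ∀ m v, ∀ y ∈ ball (0 : Fin n → ℂ) r, ∃ C : ℝ, ∀ᶠ x in 𝓝 y,
      ‖fderiv ℂ (ι m v) x‖ ≤ C * (∑ i, ‖ι (m + M₁) (θ i m v) x‖ + ‖ι m v x‖))
    {y : Fin n → ℂ} (hy : y ∈ ball (0 : Fin n → ℂ) r) (b : ℕ) :
    ∀ m v, AllVan ι θ y b m v → ι m v =O[𝓝 y] fun x => ‖x - y‖ ^ b := by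
  induction b with
  | zero =>
    intro m v _
    have h1 : ContinuousAt (ι m v) y :=
      ((hd m v).differentiableAt (isOpen_ball.mem_nhds hy)).continuousAt
    simpa using h1.isBigO_one ℝ
  | succ b ih =>
    intro m v h
    obtain ⟨C, hC⟩ := hgrad m v y hy
    have hT : (fun x => ∑ i, ‖ι (m + M₁) (θ i m v) x‖) =O[𝓝 y] fun x => ‖x - y‖ ^ b := by
      refine IsBigO.fun_sum fun i _ => ?_
      exact (ih _ _ (h.2 i)).norm_left
    refine isBigO_of_gradient ?_ h.1 hT hC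
    filter_upwards [isOpen_ball.mem_nhds hy] with x hx
    exact (hd m v).differentiableAt (isOpen_ball.mem_nhds hx)

theorem allVan_of_mem_fil
    (hθ0 : ∀ i m k v, v ∈ fil (ι m) (k + 1) → θ i m v ∈ fil (ι (m + M₁)) k)
    {t : ℝ} {y : Fin n → ℂ}
    (hbase : ∀ m : ℕ, 1 ≤ m → ∀ k : ℕ, t * m ≤ k → ∀ v ∈ fil (ι m) k, ι m v y = 0) (b : ℕ) :
    ∀ (m k : ℕ) (v : V m), 1 ≤ m → b ≤ k →
      (∀ c < b, t * (m + c * M₁) + c ≤ k) → v ∈ fil (ι m) k → AllVan ι θ y b m v := by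
  induction b with
  | zero => intro m k v _ _ _ _; trivial
  | succ b ih =>
    intro m k v hm hk hc hv
    refine ⟨hbase m hm k ?_ v hv, fun i => ?_⟩
    · have := hc 0 (by omega)
      simpa using this
    · obtain ⟨k', rfl⟩ : ∃ k', k = k' + 1 := ⟨k - 1, by omega⟩
      refine ih (m + M₁) k' (θ i m v) (by omega) (by omega) ?_ (hθ0 i m k' v hv)
      intro c hcb
      have := hc (c + 1) (by omega)
      push_cast at this ⊢
      nlinarith

variable [∀ m, FiniteDimensional ℂ (V m)]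

/-- **The local theorem.** -/
theorem loc_main [Fintype I] {r : ℝ} (hr : 0 < r)
    (hd : ∀ m v, DifferentiableOn ℂ (ι m v) (ball 0 r))
    (han : ∀ m v, AnalyticAt ℂ (ι m v) 0)
    (hθ0 : ∀ i m k v, v ∈ fil (ι m) (k + 1) → θ i m v ∈ fil (ι (m + M₁)) k)
    (hgrad : ∀ m v, ∀ y ∈ ball (0 : Fin n → ℂ) r, ∃ C : ℝ, ∀ᶠ x in 𝓝 y,
      ‖fderiv ℂ (ι m v) x‖ ≤ C * (∑ i, ‖ι (m + M₁) (θ i m v) x‖ + ‖ι m v x‖))
    {y : ℕ → Fin n → ℂ} (hy : Tendsto y atTop (𝓝 0)) (hy0 : ∀ j, y j ≠ 0)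
    (hyr : ∀ j, y j ∈ ball (0 : Fin n → ℂ) r)
    {t : ℝ} (ht0 : 0 ≤ t) (ht1 : t < 1)
    (hbase : ∀ m : ℕ, 1 ≤ m → ∀ k : ℕ, t * m ≤ k → ∀ v ∈ fil (ι m) k, ∀ j, ι m v (y j) = 0) :
    ∃ δ : ℝ, 0 < δ ∧ ∃ m₀ : ℕ, ∀ m : ℕ, m₀ ≤ m → ∃ a a₀ a₁ : ℕ,
      δ * m ≤ ((a₁ - a₀ : ℕ) : ℝ) ∧ δ * m ≤ ((m - a₁ : ℕ) : ℝ) ∧ δ * m ≤ ((a - 1 : ℕ) : ℝ) ∧
      m * Module.finrank ℂ (V m) + (m - a₁) * (a₁ - a₀) * mono n (a - 1) ≤
        (n + m).choose (n + 1) +
          ∑ k ∈ Finset.range m, Module.finrank ℂ (fil (ι m) (k + 1)) := by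
  -- the limit direction
  obtain ⟨ξ, hξ1, φ, hφ, hφξ⟩ : ∃ ξ ∈ sphere (0 : Fin n → ℂ) 1, ∃ φ : ℕ → ℕ, StrictMono φ ∧
      Tendsto ((fun j => ((‖y j‖ : ℂ))⁻¹ • y j) ∘ φ) atTop (𝓝 ξ) := by
    refine (isCompact_sphere (0 : Fin n → ℂ) 1).tendsto_subseq fun j => ?_
    rw [mem_sphere_zero_iff_norm, norm_smul, norm_inv, Complex.norm_real, norm_norm]
    exact inv_mul_cancel₀ (norm_ne_zero_iff.2 (hy0 j))
  have hξ : ξ ≠ 0 := by
    rintro rfl
    simp at hξ1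
  set s : ℝ := 1 - t with hs
  have hs0 : 0 < s := by linarith
  have hs1 : s ≤ 1 := by linarith
  set e : ℝ := s / (3 * (1 + t * M₁)) with he
  have hden : (1 : ℝ) ≤ 1 + t * M₁ := by
    have : 0 ≤ t * (M₁ : ℝ) := by positivity
    linarith
  have he0 : 0 < e := by positivity
  have hes : e * (1 + t * M₁) = s / 3 := by
    rw [he]
    field_simp
  have hes' : e ≤ s / 3 := by
    rw [← hes]
    nlinarith
  refine ⟨min (s / 6) (e / 2), by positivity, ⌈12 / s + 4 / e⌉₊ + 1, fun m hm => ?_⟩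
  have hm0 : (12 / s + 4 / e : ℝ) ≤ m := by
    have h1 := Nat.le_ceil (12 / s + 4 / e : ℝ)
    have h2 : ((⌈12 / s + 4 / e⌉₊ : ℕ) : ℝ) ≤ m := by
      have : ⌈12 / s + 4 / e⌉₊ ≤ m := by omega
      exact_mod_cast this
    linarith
  have hm1 : 1 ≤ m := by omega
  have hmR : (0 : ℝ) < m := by exact_mod_cast hm1
  have hsm : 12 ≤ s * m := by
    have h1 : 12 / s ≤ m := by
      have : 0 < 4 / e := by positivity
      linarith
    rw [div_le_iff₀ hs0] at h1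
    linarith
  have hem : 4 ≤ e * m := by
    have h1 : 4 / e ≤ m := by
      have : 0 < 12 / s := by positivity
      linarith
    rw [div_le_iff₀ he0] at h1
    linarith
  set t' : ℝ := t + s / 3 with ht'
  set t'' : ℝ := t + 2 * s / 3 with ht''
  set a₀ : ℕ := ⌈t' * m⌉₊ with ha₀
  set a₁ : ℕ := ⌊t'' * m⌋₊ with ha₁
  set a : ℕ := ⌊e * m⌋₊ with ha
  have ht'0 : 0 ≤ t' := by positivity
  have ht''0 : 0 ≤ t'' := by positivity
  have h1 : (t' * m : ℝ) ≤ a₀ := Nat.le_ceil _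
  have h2 : (a₀ : ℝ) < t' * m + 1 := Nat.ceil_lt_add_one (by positivity)
  have h3 : (a₁ : ℝ) ≤ t'' * m := Nat.floor_le (by positivity)
  have h4 : t'' * m < (a₁ : ℝ) + 1 := Nat.lt_floor_add_one _
  have h5 : (a : ℝ) ≤ e * m := Nat.floor_le (by positivity)
  have h6 : e * m < (a : ℝ) + 1 := Nat.lt_floor_add_one _
  have h7 : t'' * m - t' * m = s * m / 3 := by rw [ht', ht'']; ring
  have h8 : (m : ℝ) - t'' * m = s * m / 3 := by rw [ht'', hs]; ring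
  have ha01 : a₀ ≤ a₁ := by
    have : (a₀ : ℝ) ≤ a₁ := by linarith
    exact_mod_cast this
  have ha1m : a₁ ≤ m := by
    have : (a₁ : ℝ) ≤ m := by
      have : (0:ℝ) ≤ s * m / 3 := by positivity
      linarith
    exact_mod_cast this
  have ha1 : 1 ≤ a := by
    have : (1 : ℝ) ≤ a := by linarith
    exact_mod_cast this
  have haa₀ : a ≤ a₀ := by
    have h9 : e * m ≤ t' * m := by
      have : e ≤ t' := by rw [ht']; linarith
      exact mul_le_mul_of_nonneg_right this hmR.le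
    have : (a : ℝ) ≤ a₀ := by linarith
    exact_mod_cast this
  refine ⟨a, a₀, a₁, ?_, ?_, ?_, ?_⟩
  · rw [Nat.cast_sub ha01]
    have : min (s / 6) (e / 2) * m ≤ s / 6 * m := by gcongr; exact min_le_left _ _
    linarith
  · rw [Nat.cast_sub ha1m]
    have : min (s / 6) (e / 2) * m ≤ s / 6 * m := by gcongr; exact min_le_left _ _
    linarith
  · rw [Nat.cast_sub ha1, Nat.cast_one]
    have : min (s / 6) (e / 2) * m ≤ e / 2 * m := by gcongr; exact min_le_right _ _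
    linarith
  · refine codef_main (ι m) hξ ha1 (by omega) ?_ ?_ ?_
    · -- order `≥ 0` is no condition
      rw [eq_top_iff]
      intro v _
      rw [mem_fil]
      simpa using (han m v).continuousAt.isBigO_one ℝ
    · intro k v hv
      obtain ⟨q, hq, hq'⟩ := exists_taylor (han m v) hv
      exact ⟨q, hq, hq'⟩
    · intro k hk _ v hv q hq hrel
      refine scaling_limit (y := y ∘ φ) hr (hd m v) hq hrel (hy.comp hφ.tendsto_atTop)
        (fun j => hy0 (φ j)) hφξ ?_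
      intro j
      refine isBigO_of_allVan ι θ hd hgrad (hyr (φ j)) a m v ?_
      refine allVan_of_mem_fil ι θ hθ0 (t := t) ?_ a m k v hm1 (by omega) ?_ hv
      · intro m' hm' k' hk' v' hv'
        exact hbase m' hm' k' hk' v' hv' (φ j)
      · intro c hc
        have h9 : (c : ℝ) ≤ e * m := by
          have : (c : ℝ) ≤ a := by exact_mod_cast hc.le
          linarith
        have h10 : (a₀ : ℝ) ≤ k := by exact_mod_cast hk
        have h11 : (c : ℝ) * (1 + t * M₁) ≤ s / 3 * m := by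
          calc (c : ℝ) * (1 + t * M₁) ≤ (e * m) * (1 + t * M₁) := by gcongr
            _ = (e * (1 + t * M₁)) * m := by ring
            _ = s / 3 * m := by rw [hes]
        have h12 : t' * m = t * m + s / 3 * m := by rw [ht']; ring
        linarith

/-- **The contradiction in the equality case.** -/
theorem loc_false [Fintype I] (hn : 1 ≤ n) {r : ℝ} (hr : 0 < r)
    (hd : ∀ m v, DifferentiableOn ℂ (ι m v) (ball 0 r))
    (han : ∀ m v, AnalyticAt ℂ (ι m v) 0)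
    (hθ0 : ∀ i m k v, v ∈ fil (ι m) (k + 1) → θ i m v ∈ fil (ι (m + M₁)) k)
    (hgrad : ∀ m v, ∀ y ∈ ball (0 : Fin n → ℂ) r, ∃ C : ℝ, ∀ᶠ x in 𝓝 y,
      ‖fderiv ℂ (ι m v) x‖ ≤ C * (∑ i, ‖ι (m + M₁) (θ i m v) x‖ + ‖ι m v x‖))
    {y : ℕ → Fin n → ℂ} (hy : Tendsto y atTop (𝓝 0)) (hy0 : ∀ j, y j ≠ 0)
    (hyr : ∀ j, y j ∈ ball (0 : Fin n → ℂ) r)
    {t : ℝ} (ht0 : 0 ≤ t) (ht1 : t < 1)
    (hbase : ∀ m : ℕ, 1 ≤ m → ∀ k : ℕ, t * m ≤ k → ∀ v ∈ fil (ι m) k, ∀ j, ι m v (y j) = 0)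
    {l : Filter ℕ} [l.NeBot] (hl : l ≤ atTop)
    (hN : Tendsto (fun m => (Module.finrank ℂ (V m) : ℝ) / (m : ℝ) ^ n) l
      (𝓝 (1 / (n.factorial : ℝ))))
    (hT : ∀ ε : ℝ, 0 < ε → ∀ᶠ m in l,
      ((∑ k ∈ Finset.range m, Module.finrank ℂ (fil (ι m) (k + 1)) : ℕ) : ℝ) ≤
        ((n : ℝ) / (n + 1) + ε) * (m * Module.finrank ℂ (V m))) : False := by
  obtain ⟨δ, hδ, m₀, h⟩ := loc_main ι θ hr hd han hθ0 hgrad hy hy0 hyr ht0 ht1 hbase
  exact eq_contra hn hl hN hT hδ (hl (eventually_atTop.2 ⟨m₀, h⟩))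

end Vale.Agent.P271.Eq
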