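import Vale.Agent.P271.Eq.Pts
import Vale.Agent.P271.Eq.Loc

/-!
# P271, equality case: no positive dimensional base locus
-/

open Filter Topology Asymptotics Metric

namespace Vale.Agent.P271.Eq

open Vale.Agent.P271.Sch Vale.Agent.P271.H741
open scoped Vale.Agent.P271.Inst

variable {n : ℕ} {C : GCone n} {φ : C.Pt}

/-- Homogeneous derivations of one degree which span the tangent space at `φ`. -/
structure Ders (P : HParam C φ) where
  M₁ : ℕ
  θ : Fin (n + 1) → Derivation ℂ C.R C.R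
  deg : ∀ i m, ∀ s ∈ C.A m, θ i s ∈ C.A (m + M₁)
  det : (Matrix.of fun i j => φ (θ i (P.X j))).det ≠ 0

/-- The chain rule in the chart. -/
def ChainRule (P : HParam C φ) (c : Chart φ (n + 1)) : Prop :=
  ∀ (D : Derivation ℂ C.R C.R) (s : C.R), ∀ x ∈ ball (0 : Fin (n + 1) → ℂ) c.ρ,
    c.ψ x (D s) = ∑ j, c.ψ x (D (P.X j)) *
      fderiv ℂ (fun x => c.ψ x s) x (Pi.single j 1)

/-- The functions on the slice. -/
noncomputable def ιs (c : Chart φ (n + 1)) (m : ℕ) : C.A m →ₗ[ℂ] ((Fin n → ℂ) → ℂ) where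
  toFun s := fun y => c.ψ (sl y) (s : C.R)
  map_add' s u := by
    funext y
    simp
  map_smul' a s := by
    funext y
    simp

theorem norm_le_sum {p : ℕ} (L : (Fin p → ℂ) →L[ℂ] ℂ) : ‖L‖ ≤ ∑ j, ‖L (Pi.single j 1)‖ := by
  refine L.opNorm_le_bound (Finset.sum_nonneg fun _ _ => norm_nonneg _) fun v => ?_
  have hv : v = ∑ j, v j • (Pi.single j (1 : ℂ) : Fin p → ℂ) := by
    funext b
    simp [Finset.sum_apply, Pi.single_apply]
  conv_lhs => rw [hv]
  rw [map_sum, Finset.sum_mul]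
  refine (norm_sum_le _ _).trans (Finset.sum_le_sum fun j _ => ?_)
  rw [map_smul, norm_smul, mul_comm]
  exact mul_le_mul_of_nonneg_left (norm_le_pi_norm v j) (norm_nonneg _)

/-- Derivations lower the order at most by one. -/
theorem der_isBigO {P : HParam C φ} {c : Chart φ (n + 1)} (hch : ChainRule P c)
    (D : Derivation ℂ C.R C.R) {s : C.R} {k : ℕ}
    (h : (fun x => c.ψ x s) =O[𝓝 0] fun x => ‖x‖ ^ (k + 1)) :
    (fun x => c.ψ x (D s)) =O[𝓝 0] fun x => ‖x‖ ^ k := by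
  have hd : ∀ᶠ x in 𝓝 (0 : Fin (n + 1) → ℂ), DifferentiableAt ℂ (fun x => c.ψ x s) x := by
    filter_upwards [ball_mem_nhds (0 : Fin (n + 1) → ℂ) c.ρ_pos] with x hx
    exact (c.holo s x hx).differentiableAt
  have h1 := fderiv_isBigO hd h
  have h2 : (fun x => ∑ j, c.ψ x (D (P.X j)) *
      fderiv ℂ (fun x => c.ψ x s) x (Pi.single j 1)) =O[𝓝 0]
        fun x : Fin (n + 1) → ℂ => ‖x‖ ^ k := by
    refine IsBigO.fun_sum fun j _ => ?_
    have h3 : (fun x => c.ψ x (D (P.X j))) =O[𝓝 0] fun _ => (1 : ℝ) :=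
      ((c.holo (D (P.X j)) 0 (mem_ball_self c.ρ_pos)).continuousAt).isBigO_one ℝ
    have h4 : (fun x => fderiv ℂ (fun x => c.ψ x s) x (Pi.single j 1)) =O[𝓝 0]
        fun x : Fin (n + 1) → ℂ => ‖x‖ ^ k := by
      refine IsBigO.trans ?_ h1
      refine IsBigO.of_bound ‖(Pi.single j 1 : Fin (n + 1) → ℂ)‖ (Eventually.of_forall fun x => ?_)
      rw [mul_comm]
      exact ContinuousLinearMap.le_opNorm _ _
    have h5 := h3.mul h4
    simpa only [one_mul] using h5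
  refine h2.congr' ?_ (EventuallyEq.refl _ _)
  filter_upwards [ball_mem_nhds (0 : Fin (n + 1) → ℂ) c.ρ_pos] with x hx
  exact (hch D s x hx).symm

/-- The gradient is controlled by the derivations. -/
theorem exists_grad {P : HParam C φ} {c : Chart φ (n + 1)} (hch : ChainRule P c) (Δ : Ders P) :
    ∃ r : ℝ, 0 < r ∧ r ≤ c.ρ ∧ ∀ y ∈ ball (0 : Fin n → ℂ) r, ∃ K : ℝ,
      ∀ᶠ x in 𝓝 y, ∀ s : C.R, ‖fderiv ℂ (fun y : Fin n → ℂ => c.ψ (sl y) s) x‖ ≤
        K * ∑ i, ‖c.ψ (sl x) (Δ.θ i s)‖ := by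
  classical
  let M : (Fin (n + 1) → ℂ) → Matrix (Fin (n + 1)) (Fin (n + 1)) ℂ := fun x =>
    Matrix.of fun i j => c.ψ x (Δ.θ i (P.X j))
  have hMc : ∀ x ∈ ball (0 : Fin (n + 1) → ℂ) c.ρ, ContinuousAt M x := by
    intro x hx
    refine continuousAt_pi.2 fun i => continuousAt_pi.2 fun j => ?_
    exact (c.holo (Δ.θ i (P.X j)) x hx).continuousAt
  have hdet0 : (M 0).det ≠ 0 := by
    have : M 0 = Matrix.of fun i j => φ (Δ.θ i (P.X j)) := by
      ext i j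
      show c.ψ 0 _ = φ _
      rw [c.zero]
    rw [this]
    exact Δ.det
  have hdc : Continuous (fun A : Matrix (Fin (n + 1)) (Fin (n + 1)) ℂ => A.det) :=
    Continuous.matrix_det continuous_id
  have hac : Continuous (fun A : Matrix (Fin (n + 1)) (Fin (n + 1)) ℂ => A.adjugate) :=
    Continuous.matrix_adjugate continuous_id
  have hdetc : ∀ x ∈ ball (0 : Fin (n + 1) → ℂ) c.ρ, ContinuousAt (fun x => (M x).det) x := by
    intro x hx
    exact hdc.continuousAt.comp (hMc x hx)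
  obtain ⟨r₀, hr₀, hr₀M⟩ := Metric.eventually_nhds_iff.1
    ((hdetc 0 (mem_ball_self c.ρ_pos)).eventually_ne hdet0)
  refine ⟨min r₀ c.ρ, lt_min hr₀ c.ρ_pos, min_le_right _ _, fun y hy => ?_⟩
  have hyb : sl y ∈ ball (0 : Fin (n + 1) → ℂ) c.ρ := by
    rw [mem_ball_zero_iff, norm_sl]
    rw [mem_ball_zero_iff] at hy
    exact lt_of_lt_of_le hy (min_le_right _ _)
  have hydet : (M (sl y)).det ≠ 0 := by
    refine hr₀M ?_
    rw [dist_zero_right, norm_sl]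
    rw [mem_ball_zero_iff] at hy
    exact lt_of_lt_of_le hy (min_le_left _ _)
  let N : (Fin (n + 1) → ℂ) → Matrix (Fin (n + 1)) (Fin (n + 1)) ℂ := fun x =>
    ((M x).det)⁻¹ • (M x).adjugate
  have hNc : ContinuousAt N (sl y) := by
    have h1 : ContinuousAt (fun x => ((M x).det)⁻¹) (sl y) := (hdetc _ hyb).inv₀ hydet
    have h2 : ContinuousAt (fun x => (M x).adjugate) (sl y) :=
      ContinuousAt.comp (g := fun A : Matrix (Fin (n + 1)) (Fin (n + 1)) ℂ => A.adjugate)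
        hac.continuousAt (hMc _ hyb)
    exact h1.smul h2
  have hslc : Tendsto (sl : (Fin n → ℂ) → _) (𝓝 y) (𝓝 (sl y)) := (continuous_sl).tendsto y
  have hbd : ∀ᶠ x in 𝓝 y, ∀ j i, ‖N (sl x) j i‖ ≤ ‖N (sl y) j i‖ + 1 := by
    rw [eventually_all]
    intro j
    rw [eventually_all]
    intro i
    have h1 : ContinuousAt (fun x => ‖N x j i‖) (sl y) :=
      (continuousAt_pi.1 (continuousAt_pi.1 hNc j) i).norm
    have h2 : Tendsto (fun x => ‖N (sl x) j i‖) (𝓝 y) (𝓝 ‖N (sl y) j i‖) := h1.tendsto.comp hslc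
    exact (h2.eventually_lt_const (lt_add_one _)).mono fun x hx => hx.le
  have hball : ∀ᶠ x in 𝓝 y, sl x ∈ ball (0 : Fin (n + 1) → ℂ) c.ρ :=
    hslc.eventually (isOpen_ball.mem_nhds hyb)
  have hdet : ∀ᶠ x in 𝓝 y, (M (sl x)).det ≠ 0 :=
    hslc.eventually ((hdetc _ hyb).eventually_ne hydet)
  refine ⟨(∑ j, ∑ i, (‖N (sl y) j i‖ + 1)) * ‖(slL : (Fin n → ℂ) →L[ℂ] _)‖, ?_⟩
  filter_upwards [hbd, hball, hdet] with x hx1 hx2 hx3
  intro s
  set L := fderiv ℂ (fun x => c.ψ x s) (sl x) with hL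
  set G : Fin (n + 1) → ℂ := fun j => L (Pi.single j 1) with hG
  set T : Fin (n + 1) → ℂ := fun i => c.ψ (sl x) (Δ.θ i s) with hT
  have hTG : T = (M (sl x)).mulVec G := by
    funext i
    exact hch (Δ.θ i) s (sl x) hx2
  have hGT : G = (N (sl x)).mulVec T := by
    rw [hTG, Matrix.mulVec_mulVec]
    have : N (sl x) * M (sl x) = 1 := by
      show (((M (sl x)).det)⁻¹ • (M (sl x)).adjugate) * M (sl x) = 1
      rw [Matrix.smul_mul, Matrix.adjugate_mul, smul_smul, inv_mul_cancel₀ hx3, one_smul]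
    rw [this, Matrix.one_mulVec]
  have hS0 : 0 ≤ ∑ i, ‖T i‖ := Finset.sum_nonneg fun _ _ => norm_nonneg _
  have hGj : ∀ j, ‖G j‖ ≤ (∑ i, (‖N (sl y) j i‖ + 1)) * ∑ i, ‖T i‖ := by
    intro j
    rw [hGT]
    show ‖∑ i, N (sl x) j i * T i‖ ≤ _
    rw [Finset.sum_mul]
    refine (norm_sum_le _ _).trans (Finset.sum_le_sum fun i _ => ?_)
    rw [norm_mul]
    refine mul_le_mul (hx1 j i) ?_ (norm_nonneg _) (by positivity)
    exact Finset.single_le_sum (f := fun i => ‖T i‖) (fun _ _ => norm_nonneg _) (Finset.mem_univ i)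
  have hLn : ‖L‖ ≤ (∑ j, ∑ i, (‖N (sl y) j i‖ + 1)) * ∑ i, ‖T i‖ := by
    refine (norm_le_sum L).trans ?_
    rw [Finset.sum_mul]
    exact Finset.sum_le_sum fun j _ => hGj j
  have hfd : fderiv ℂ (fun y : Fin n → ℂ => c.ψ (sl y) s) x = L.comp slL := by
    have h1 : HasFDerivAt (fun x => c.ψ x s) L (slL x) := by
      rw [slL_apply]
      exact (c.holo s _ hx2).differentiableAt.hasFDerivAt
    have h2 := h1.comp x (slL (n := n)).hasFDerivAt
    have h3 : (fun y : Fin n → ℂ => c.ψ (sl y) s) = (fun x => c.ψ x s) ∘ slL := by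
      funext y
      rw [Function.comp_apply, slL_apply]
    rw [h3]
    exact h2.fderiv
  rw [hfd]
  calc ‖L.comp slL‖ ≤ ‖L‖ * ‖(slL : (Fin n → ℂ) →L[ℂ] _)‖ := L.opNorm_comp_le _
    _ ≤ ((∑ j, ∑ i, (‖N (sl y) j i‖ + 1)) * ∑ i, ‖T i‖) * ‖(slL : (Fin n → ℂ) →L[ℂ] _)‖ := by
        gcongr
    _ = _ := by ring

/-- The elements of `A m` of order `≥ k` at `φ`. -/
noncomputable def ordA (φ : C.Pt) (m k : ℕ) : Submodule ℂ C.R :=
  ((RingHom.ker φ ^ k).restrictScalars ℂ) ⊓ C.A m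

theorem mem_ordA {m k : ℕ} {s : C.R} : s ∈ ordA φ m k ↔ s ∈ pI φ ^ k ∧ s ∈ C.A m := Iff.rfl

/-- **No prime strictly between the base ideal and the orbit.** -/
theorem no_prime [∀ m, FiniteDimensional ℂ (C.A m)] (hn : 1 ≤ n) (P : HParam C φ)
    (c : Chart φ (n + 1))
    (hc : ∀ j, c.t j = P.X j - algebraMap ℂ C.R (φ (P.X j))) (hch : ChainRule P c) (Δ : Ders P)
    {l : Filter ℕ} [l.NeBot] (hl : l ≤ atTop)
    (hN : Tendsto (fun m => (Module.finrank ℂ (C.A m) : ℝ) / (m : ℝ) ^ n) l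
      (𝓝 (1 / (n.factorial : ℝ))))
    (hT : ∀ ε : ℝ, 0 < ε → ∀ᶠ m in l,
      ((∑ k ∈ Finset.range m, Module.finrank ℂ (ordA φ m (k + 1)) : ℕ) : ℝ) ≤
        ((n : ℝ) / (n + 1) + ε) * (m * Module.finrank ℂ (C.A m)))
    {t : ℝ} (ht0 : 0 ≤ t) (ht1 : t < 1)
    {Q : Ideal C.R} [hQp : Q.IsPrime] (hQ : Q ≤ pI φ)
    (hbase : ∀ m : ℕ, 1 ≤ m → ∀ k : ℕ, t * m ≤ k → ∀ s ∈ C.A m, s ∈ pI φ ^ k → s ∈ Q)
    {e : ℕ} {g : C.R} (hge : g ∈ C.A e) (hφg : φ g = 0) : g ∈ Q := by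
  by_contra hg
  obtain ⟨r, hr, hrρ, hgrad⟩ := exists_grad hch Δ
  have hpt : ∀ j : ℕ, ∃ y : Fin n → ℂ, ‖y‖ < min r (1 / (j + 1)) ∧ y ≠ 0 ∧
      ∀ m, ∀ s ∈ C.A m, s ∈ Q → c.ψ (sl y) s = 0 := fun j =>
    exists_slice_point P c hc hQ hge hg hφg (by positivity)
  choose y hy1 hy2 hy3 using hpt
  have hslb : ∀ x ∈ ball (0 : Fin n → ℂ) r, sl x ∈ ball (0 : Fin (n + 1) → ℂ) c.ρ := by
    intro x hx
    rw [mem_ball_zero_iff] at hx ⊢
    rw [norm_sl]
    exact lt_of_lt_of_le hx hrρ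
  have hana : ∀ (m : ℕ) (v : C.A m), ∀ x ∈ ball (0 : Fin n → ℂ) r, AnalyticAt ℂ (ιs c m v) x := by
    intro m v x hx
    have h1 : AnalyticAt ℂ (fun x => c.ψ x (v : C.R)) (slL x) := by
      rw [slL_apply]
      exact c.holo (v : C.R) _ (hslb x hx)
    have h2 := AnalyticAt.comp h1 ((slL (n := n)).analyticAt x)
    refine h2.congr (Eventually.of_forall fun z => ?_)
    show c.ψ (slL z) (v : C.R) = c.ψ (sl z) (v : C.R)
    rw [slL_apply]
  refine loc_false (V := fun m => C.A m) (I := Fin (n + 1)) (M₁ := Δ.M₁) (ιs c)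
    (fun i m s => ⟨Δ.θ i s, Δ.deg i m s s.2⟩) hn hr
    (fun m v x hx => (hana m v x hx).differentiableAt.differentiableWithinAt)
    (fun m v => hana m v 0 (mem_ball_self hr)) ?_ ?_ (y := y) ?_ hy2 ?_ ht0 ht1 ?_ hl hN ?_
  · intro i m k v hv
    have h1 : (fun x => c.ψ x (v : C.R)) =O[𝓝 0] fun x => ‖x‖ ^ (k + 1) :=
      isBigO_full P c hc v.2 hv
    exact isBigO_slice c (der_isBigO hch (Δ.θ i) h1)
  · intro m v x hx
    obtain ⟨K, hK⟩ := hgrad x hx
    refine ⟨|K|, ?_⟩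
    filter_upwards [hK] with z hz
    refine (hz (v : C.R)).trans ?_
    have h1 : K * ∑ i, ‖c.ψ (sl z) (Δ.θ i (v : C.R))‖ ≤
        |K| * ∑ i, ‖c.ψ (sl z) (Δ.θ i (v : C.R))‖ :=
      mul_le_mul_of_nonneg_right (le_abs_self K) (Finset.sum_nonneg fun _ _ => norm_nonneg _)
    refine h1.trans (mul_le_mul_of_nonneg_left ?_ (abs_nonneg K))
    exact le_add_of_nonneg_right (norm_nonneg _)
  · rw [tendsto_zero_iff_norm_tendsto_zero]
    refine squeeze_zero (fun j => norm_nonneg _) (fun j => ((hy1 j).trans_le (min_le_right _ _)).le)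
      tendsto_one_div_add_atTop_nhds_zero_nat
  · intro j
    rw [mem_ball_zero_iff]
    exact (hy1 j).trans_le (min_le_left _ _)
  · intro m hm k hk v hv j
    have h1 : (fun x => c.ψ x (v : C.R)) =O[𝓝 0] fun x => ‖x‖ ^ k := isBigO_full P c hc v.2 hv
    exact hy3 j m v v.2 (hbase m hm k hk v v.2 (mem_pow_of_isBigO P c hc h1))
  · intro ε hε
    filter_upwards [hT ε hε] with m hm
    refine le_trans ?_ hm
    have h1 : ∑ k ∈ Finset.range m, Module.finrank ℂ (fil (ιs c m) (k + 1)) ≤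
        ∑ k ∈ Finset.range m, Module.finrank ℂ (ordA φ m (k + 1)) := by
      refine Finset.sum_le_sum fun k _ => ?_
      have h2 : (fil (ιs c m) (k + 1)).map (C.A m).subtype ≤ ordA φ m (k + 1) := by
        rintro _ ⟨v, hv, rfl⟩
        exact ⟨mem_pow_of_isBigO P c hc (isBigO_full P c hc v.2 hv), v.2⟩
      have hfin : FiniteDimensional ℂ (ordA φ m (k + 1)) :=
        Submodule.finiteDimensional_of_le inf_le_right
      calc Module.finrank ℂ (fil (ιs c m) (k + 1))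
          = Module.finrank ℂ ((fil (ιs c m) (k + 1)).map (C.A m).subtype) :=
            LinearEquiv.finrank_eq
              (Submodule.equivMapOfInjective _ (Submodule.injective_subtype _) _)
        _ ≤ _ := Submodule.finrank_mono h2
    exact_mod_cast h1

end Vale.Agent.P271.Eq
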