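import Vale.Agent.P271.Eq.Slice
import Vale.Agent.P271.H112.Dens

/-!
# P271, equality case: points of the zero set of a prime ideal on the slice
-/

open Filter Topology Asymptotics Metric

namespace Vale.Agent.P271.Eq

open Vale.Agent.P271.Sch Vale.Agent.P271.H741
open scoped Vale.Agent.P271.Inst

variable {n : ℕ} {C : GCone n} {φ : C.Pt}

theorem frequently_point {Q : Ideal C.R} [hQp : Q.IsPrime] (hQ : Q ≤ pI φ) {g : C.R}
    (hg : g ∉ Q) : ∃ᶠ χ in 𝓝 φ, (∀ q ∈ Q, χ q = 0) ∧ χ g ≠ 0 := by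
  have := C.finiteType
  have : Algebra.FiniteType ℂ (C.R ⧸ Q) :=
    Algebra.FiniteType.of_surjective (Ideal.Quotient.mkₐ ℂ Q) (Ideal.Quotient.mkₐ_surjective ℂ Q)
  let p : (C.R ⧸ Q) →ₐ[ℂ] ℂ := Ideal.Quotient.liftₐ Q φ fun a ha => hQ ha
  have hp : ∀ s : C.R, p (Ideal.Quotient.mk Q s) = φ s := fun s => rfl
  have he : (Ideal.Quotient.mk Q g) ≠ 0 := fun h => hg (Ideal.Quotient.eq_zero_iff_mem.1 h)
  have h1 := H112.dense_points p he
  rw [← frequently_mem_iff_neBot] at h1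
  have h2 : Tendsto (fun π : (C.R ⧸ Q) →ₐ[ℂ] ℂ => (π.comp (Ideal.Quotient.mkₐ ℂ Q) : C.Pt))
      (H112.ptNhd p) (𝓝 φ) := by
    rw [Inst.tendsto_iff]
    intro f
    have h3 := H112.tendsto_ptNhd_iff.1 (tendsto_id (α := (C.R ⧸ Q) →ₐ[ℂ] ℂ) (x := H112.ptNhd p))
      (Ideal.Quotient.mk Q f)
    rw [hp] at h3
    exact h3
  refine h2.frequently (h1.mono fun π hπ => ⟨fun q hq => ?_, hπ⟩)
  show π (Ideal.Quotient.mk Q q) = 0
  rw [Ideal.Quotient.eq_zero_iff_mem.2 hq, map_zero]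

/-- Points of the zero set on the slice. -/
theorem exists_slice_point (P : HParam C φ) (c : Chart φ (n + 1))
    (hc : ∀ j, c.t j = P.X j - algebraMap ℂ C.R (φ (P.X j)))
    {Q : Ideal C.R} [hQp : Q.IsPrime] (hQ : Q ≤ pI φ) {e : ℕ} {g : C.R} (hge : g ∈ C.A e)
    (hg : g ∉ Q) (hφg : φ g = 0) {ε : ℝ} (hε : 0 < ε) :
    ∃ y : Fin n → ℂ, ‖y‖ < ε ∧ y ≠ 0 ∧ ∀ m, ∀ s ∈ C.A m, s ∈ Q → c.ψ (sl y) s = 0 := by
  obtain ⟨T, hTd, hT0, hT⟩ := exists_slice P c hc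
  have hx0 : Tendsto (fun x : Fin (n + 1) → ℂ => x 0) (𝓝 0) (𝓝 0) := by
    have : Continuous fun x : Fin (n + 1) → ℂ => x 0 := by fun_prop
    simpa using this.tendsto 0
  have hTt : Tendsto (fun x : Fin (n + 1) → ℂ => T (x 0)) (𝓝 0) (𝓝 1) := by
    have h1 : Tendsto T (𝓝 0) (𝓝 (T 0)) := hTd.continuousAt
    rw [hT0] at h1
    exact h1.comp hx0
  have hY : Tendsto (fun x : Fin (n + 1) → ℂ => fun i : Fin n => T (x 0) ^ P.d i.succ * x i.succ)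
      (𝓝 0) (𝓝 0) := by
    rw [tendsto_pi_nhds]
    intro i
    have h1 : Tendsto (fun x : Fin (n + 1) → ℂ => x i.succ) (𝓝 0) (𝓝 0) := by
      have : Continuous fun x : Fin (n + 1) → ℂ => x i.succ := by fun_prop
      simpa using this.tendsto 0
    have h2 := (hTt.pow (P.d i.succ)).mul h1
    simpa using h2
  have hYε : ∀ᶠ x : Fin (n + 1) → ℂ in 𝓝 0,
      ‖(fun i : Fin n => T (x 0) ^ P.d i.succ * x i.succ)‖ < ε := by
    have h1 := hY.norm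
    rw [norm_zero] at h1
    exact h1.eventually_lt_const hε
  have hfr0 : ∃ᶠ χ in 𝓝 φ, (∀ q ∈ Q, c.ψ (c.X χ) q = 0) ∧ c.ψ (c.X χ) g ≠ 0 := by
    refine ((frequently_point hQ hg).and_eventually c.near).mono fun χ hχ => ?_
    rw [hχ.2.2]
    exact hχ.1
  have hfr : ∃ᶠ x in 𝓝 (0 : Fin (n + 1) → ℂ), (∀ q ∈ Q, c.ψ x q = 0) ∧ c.ψ x g ≠ 0 :=
    c.tendsto_X.frequently hfr0
  obtain ⟨x, ⟨hx1, hx2⟩, ⟨hxT, hx3⟩, hx4⟩ := (hfr.and_eventually (hT.and hYε)).exists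
  refine ⟨_, hx4, ?_, ?_⟩
  · intro h0
    have h1 := hx3 e g hge
    rw [h0, sl_zero, c.zero, hφg, mul_zero] at h1
    exact hx2 h1
  · intro m s hs hsQ
    have h1 := hx3 m s hs
    rw [hx1 s hsQ] at h1
    rcases mul_eq_zero.1 h1.symm with h2 | h2
    · exact absurd h2 (inv_ne_zero (pow_ne_zero _ hxT))
    · exact h2

end Vale.Agent.P271.Eq
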