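import Vale.Agent.P271.Eq.NoPrime
import Vale.Agent.P271.Eq.HParam

/-!
# P271, equality case: finitely many sections of one degree and high order which cut out the orbit
-/

open Filter Topology Asymptotics Metric

namespace Vale.Agent.P271.Eq

open Vale.Agent.P271.Sch Vale.Agent.P271.H741

variable {n : ℕ} {C : GCone n} {φ : C.Pt}

/-- The sections of order at least `t` times the degree. -/
def gs (φ : C.Pt) (t : ℝ) : Set C.R :=
  {s | ∃ m k : ℕ, 1 ≤ m ∧ t * m ≤ k ∧ s ∈ C.A m ∧ s ∈ pI φ ^ k}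

theorem exists_mul_pow_mem {t : ℝ} (ht : 0 < t) {g : C.R}
    (H : ∀ Q : Ideal C.R, Q.IsPrime → Q ≤ pI φ →
      (∀ m : ℕ, 1 ≤ m → ∀ k : ℕ, t * m ≤ k → ∀ s ∈ C.A m, s ∈ pI φ ^ k → s ∈ Q) → g ∈ Q) :
    ∃ (N : ℕ) (h : C.R), φ h ≠ 0 ∧ h * g ^ N ∈ Ideal.span (gs φ t) := by
  by_contra hcon
  push Not at hcon
  have hprime : (pI φ).IsPrime := RingHom.ker_isPrime (φ : C.R →+* ℂ)
  let S : Submonoid C.R := (pI φ).primeCompl ⊔ Submonoid.powers g
  have hS : ∀ x ∈ S, ∃ (N : ℕ) (h : C.R), φ h ≠ 0 ∧ x = h * g ^ N := by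
    intro x hx
    obtain ⟨a, ha, b, ⟨N, hb⟩, rfl⟩ := Submonoid.mem_sup.1 hx
    refine ⟨N, a, ha, ?_⟩
    rw [← hb]
  have hdis : Disjoint ((Ideal.span (gs φ t) : Ideal C.R) : Set C.R) S := by
    rw [Set.disjoint_left]
    intro x hx hxS
    obtain ⟨N, h, hh, rfl⟩ := hS x hxS
    exact hcon N h hh hx
  obtain ⟨Q, hQ, hle, hd⟩ := Ideal.exists_le_prime_disjoint _ S hdis
  have hQφ : Q ≤ pI φ := by
    intro x hx
    by_contra hxφ
    exact Set.disjoint_left.1 hd hx (Submonoid.mem_sup_left (show x ∈ (pI φ).primeCompl from hxφ))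
  have hgQ : g ∈ Q := H Q hQ hQφ fun m hm k hk s hs hsk =>
    hle (Ideal.subset_span ⟨m, k, hm, hk, hs, hsk⟩)
  exact Set.disjoint_left.1 hd hgQ (Submonoid.mem_sup_right (Submonoid.mem_powers g))

theorem exists_finset {t : ℝ} (ht : 0 < t)
    (H : ∀ e, ∀ g ∈ C.A e, φ g = 0 → ∃ (N : ℕ) (h : C.R), φ h ≠ 0 ∧
      h * g ^ N ∈ Ideal.span (gs φ t)) :
    ∃ m : ℕ, 1 ≤ m ∧ ∃ S : Finset C.R, (∀ s ∈ S, s ∈ C.A m ∧ ∃ k : ℕ, t * m ≤ k ∧ s ∈ pI φ ^ k) ∧
      ∀ e, ∀ g ∈ C.A e, φ g = 0 → ∃ (N : ℕ) (h : C.R), φ h ≠ 0 ∧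
        h * g ^ N ∈ Ideal.span (S : Set C.R) := by
  classical
  have hft := C.finiteType
  have hNoeth : IsNoetherianRing C.R := Algebra.FiniteType.isNoetherianRing ℂ C.R
  obtain ⟨S₀, hS₀, hspan⟩ := (Submodule.fg_span_iff_fg_span_finset_subset (R := C.R) (gs φ t)).1
    (IsNoetherian.noetherian (Ideal.span (gs φ t)))
  have hS₁ : ∀ s : S₀, ∃ m k : ℕ, 1 ≤ m ∧ t * m ≤ k ∧ (s : C.R) ∈ C.A m ∧ (s : C.R) ∈ pI φ ^ k :=
    fun s => hS₀ s.2
  choose a k ha hak hsa hsk using hS₁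
  set m : ℕ := ∏ s, a s with hm
  have hmpos : 1 ≤ m := Finset.one_le_prod' fun s _ => ha s
  have hdvd : ∀ s, a s ∣ m := fun s => Finset.dvd_prod_of_mem _ (Finset.mem_univ s)
  choose q hq using hdvd
  have hqpos : ∀ s, 1 ≤ q s := by
    intro s
    rcases Nat.eq_zero_or_pos (q s) with h | h
    · rw [hq s, h, mul_zero] at hmpos
      omega
    · exact h
  refine ⟨m, hmpos, Finset.univ.image (fun s : S₀ => (s : C.R) ^ q s), ?_, ?_⟩
  · intro s hs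
    obtain ⟨s, -, rfl⟩ := Finset.mem_image.1 hs
    refine ⟨?_, k s * q s, ?_, ?_⟩
    · have h1 := SetLike.pow_mem_graded (q s) (hsa s)
      rw [smul_eq_mul, mul_comm, ← hq s] at h1
      exact h1
    · have h1 : (m : ℝ) = a s * q s := by exact_mod_cast hq s
      rw [h1, ← mul_assoc]
      push_cast
      exact mul_le_mul_of_nonneg_right (hak s) (Nat.cast_nonneg _)
    · rw [pow_mul]
      exact Ideal.pow_mem_pow (hsk s) _
  · intro e g hg hφg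
    obtain ⟨N, h, hh, hmem⟩ := H e g hg hφg
    set I : Ideal C.R := Ideal.span ((Finset.univ.image fun s : S₀ => (s : C.R) ^ q s :
      Finset C.R) : Set C.R) with hI
    have hle : Ideal.span (gs φ t) ≤ I.radical := by
      have h1 : Ideal.span (gs φ t) = Ideal.span (S₀ : Set C.R) := hspan
      rw [h1, Ideal.span_le]
      intro s hs
      refine ⟨q ⟨s, hs⟩, Ideal.subset_span ?_⟩
      rw [Finset.mem_coe, Finset.mem_image]
      exact ⟨⟨s, hs⟩, Finset.mem_univ _, rfl⟩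
    obtain ⟨N', hN'⟩ := hle hmem
    refine ⟨N * N', h ^ N', ?_, ?_⟩
    · rw [map_pow]
      exact pow_ne_zero _ hh
    · rw [mul_pow, ← pow_mul] at hN'
      exact hN'

/-- The orders of elements of one degree are bounded. -/
theorem exists_ordA_eq_bot [∀ m, FiniteDimensional ℂ (C.A m)] (φ : C.Pt) (m : ℕ) :
    ∃ K, ∀ k, K ≤ k → ordA φ m k = ⊥ := by
  have hft := C.finiteType
  have hNoeth : IsNoetherianRing C.R := Algebra.FiniteType.isNoetherianRing ℂ C.R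
  have hanti : ∀ k l, k ≤ l → ordA φ m l ≤ ordA φ m k := fun k l hkl s hs =>
    ⟨Ideal.pow_le_pow_right hkl hs.1, hs.2⟩
  let f : ℕ →o (Submodule ℂ (C.A m))ᵒᵈ :=
    ⟨fun k => OrderDual.toDual ((ordA φ m k).comap (C.A m).subtype), fun k l hkl =>
      Submodule.comap_mono (hanti k l hkl)⟩
  obtain ⟨K, hK⟩ := IsArtinian.monotone_stabilizes f
  have hK' : ∀ k, K ≤ k → (ordA φ m K).comap (C.A m).subtype =
      (ordA φ m k).comap (C.A m).subtype := fun k hk => hK k hk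
  have hprime : (pI φ).IsPrime := RingHom.ker_isPrime (φ : C.R →+* ℂ)
  have h0 : ordA φ m K = ⊥ := by
    rw [eq_bot_iff]
    intro s hs
    have h1 : ∀ k, s ∈ pI φ ^ k := by
      intro k
      rcases le_total K k with h | h
      · have h2 : (⟨s, hs.2⟩ : C.A m) ∈ (ordA φ m K).comap (C.A m).subtype := hs
        rw [hK' k h] at h2
        exact h2.1
      · exact Ideal.pow_le_pow_right h hs.1
    have h3 : s ∈ ⨅ k, pI φ ^ k := by
      rw [Submodule.mem_iInf]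
      exact h1
    rw [Ideal.iInf_pow_eq_bot_of_isDomain _ hprime.ne_top] at h3
    exact h3
  refine ⟨K, fun k hk => ?_⟩
  rw [eq_bot_iff, ← h0]
  exact hanti K k hk

/-- **Sections of high order cutting out the orbit.** -/
theorem eq_sections [∀ m, FiniteDimensional ℂ (C.A m)] (hn : 1 ≤ n) (P : HParam C φ)
    (c : Chart φ (n + 1))
    (hc : ∀ j, c.t j = P.X j - algebraMap ℂ C.R (φ (P.X j))) (hch : ChainRule P c) (Δ : Ders P)
    {l : Filter ℕ} [l.NeBot] (hl : l ≤ atTop)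
    (hN : Tendsto (fun m => (Module.finrank ℂ (C.A m) : ℝ) / (m : ℝ) ^ n) l
      (𝓝 (1 / (n.factorial : ℝ))))
    (hT : ∀ ε : ℝ, 0 < ε → ∀ᶠ m in l,
      ((∑ k ∈ Finset.range m, Module.finrank ℂ (ordA φ m (k + 1)) : ℕ) : ℝ) ≤
        ((n : ℝ) / (n + 1) + ε) * (m * Module.finrank ℂ (C.A m)))
    {t : ℝ} (ht0 : 0 < t) (ht1 : t < 1) :
    ∃ m : ℕ, 1 ≤ m ∧ ∃ S : Finset C.R, (∀ s ∈ S, s ∈ C.A m ∧ ∃ k : ℕ, t * m ≤ k ∧ s ∈ pI φ ^ k) ∧
      ∀ e, ∀ g ∈ C.A e, φ g = 0 → ∃ (N : ℕ) (h : C.R), φ h ≠ 0 ∧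
        h * g ^ N ∈ Ideal.span (S : Set C.R) :=
  exists_finset ht0 fun e g hg hφg => exists_mul_pow_mem ht0 fun Q hQ hQφ hQb =>
    haveI := hQ
    no_prime hn P c hc hch Δ hl hN hT ht0.le ht1 hQφ hQb hg hφg

end Vale.Agent.P271.Eq
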