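import Vale.Agent.P271.Inst.ChartL
import Vale.Agent.P271.Eq.Alg
import Vale.Agent.P271.Eq.Cauchy
import Vale.Agent.P271.Eq.Local

/-!
# P271, equality case: slices of the `ℂˣ`-action in a chart with homogeneous coordinates
-/

open Filter Topology Asymptotics Metric

namespace Vale.Agent.P271.Eq

open Vale.Agent.P271.Sch Vale.Agent.P271.H741
open scoped Vale.Agent.P271.Inst

variable {n : ℕ} {C : GCone n} {φ : C.Pt}

/-- Homogeneous regular parameters at `φ`: `X 0` does not vanish at `φ`, the others do. -/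
structure HParam (C : GCone n) (φ : C.Pt) where
  X : Fin (n + 1) → C.R
  d : Fin (n + 1) → ℕ
  mem : ∀ j, X j ∈ C.A (d j)
  d_pos : 0 < d 0
  ne : φ (X 0) ≠ 0
  zero : ∀ i : Fin n, φ (X i.succ) = 0
  params : Params φ X

/-- The tail of a vector. -/
def tl (x : Fin (n + 1) → ℂ) : Fin n → ℂ := fun i => x i.succ

/-- The slice. -/
def sl (y : Fin n → ℂ) : Fin (n + 1) → ℂ := Fin.cons 0 y

theorem sl_zero : sl (0 : Fin n → ℂ) = 0 := by
  funext j
  refine Fin.cases ?_ (fun i => ?_) j <;> simp [sl]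

theorem sl_apply_zero (y : Fin n → ℂ) : sl y 0 = 0 := by simp [sl]

theorem sl_apply_succ (y : Fin n → ℂ) (i : Fin n) : sl y i.succ = y i := by simp [sl]

theorem norm_sl (y : Fin n → ℂ) : ‖sl y‖ = ‖y‖ := by
  refine le_antisymm ?_ ?_
  · rw [pi_norm_le_iff_of_nonneg (norm_nonneg _)]
    intro j
    refine Fin.cases ?_ (fun i => ?_) j
    · rw [sl_apply_zero, norm_zero]
      exact norm_nonneg _
    · rw [sl_apply_succ]
      exact norm_le_pi_norm y i
  · rw [pi_norm_le_iff_of_nonneg (norm_nonneg _)]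
    intro i
    have := norm_le_pi_norm (sl y) i.succ
    rwa [sl_apply_succ] at this

theorem norm_tl_le (x : Fin (n + 1) → ℂ) : ‖tl x‖ ≤ ‖x‖ := by
  rw [pi_norm_le_iff_of_nonneg (norm_nonneg _)]
  intro i
  exact norm_le_pi_norm x i.succ

/-- The slice as a continuous linear map. -/
noncomputable def slL : (Fin n → ℂ) →L[ℂ] (Fin (n + 1) → ℂ) :=
  ContinuousLinearMap.pi fun j => Fin.cases 0 (fun i => ContinuousLinearMap.proj i) j

theorem slL_apply (y : Fin n → ℂ) : slL y = sl y := by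
  funext j
  refine Fin.cases ?_ (fun i => ?_) j
  · rw [sl_apply_zero]
    rfl
  · rw [sl_apply_succ]
    rfl

theorem continuous_sl : Continuous (sl : (Fin n → ℂ) → Fin (n + 1) → ℂ) := by
  have h : (sl : (Fin n → ℂ) → Fin (n + 1) → ℂ) = slL := by
    funext y
    rw [slL_apply]
  rw [h]
  exact slL.continuous

theorem tendsto_sl : Tendsto (sl : (Fin n → ℂ) → Fin (n + 1) → ℂ) (𝓝 0) (𝓝 0) := by
  have := (continuous_sl (n := n)).tendsto 0
  rwa [sl_zero] at this

section chart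

variable (P : HParam C φ) (c : Chart φ (n + 1))
  (hc : ∀ j, c.t j = P.X j - algebraMap ℂ C.R (φ (P.X j)))

include hc

theorem ψ_X {x : Fin (n + 1) → ℂ} (hx : x ∈ ball (0 : Fin (n + 1) → ℂ) c.ρ) (j : Fin (n + 1)) :
    c.ψ x (P.X j) = φ (P.X j) + x j := by
  have h := c.coord x hx j
  rw [hc, map_sub, AlgHom.commutes] at h
  have h2 : algebraMap ℂ ℂ (φ (P.X j)) = φ (P.X j) := rfl
  rw [h2] at h
  linear_combination h

/-- **The slice formula.** -/
theorem exists_slice : ∃ T : ℂ → ℂ, DifferentiableAt ℂ T 0 ∧ T 0 = 1 ∧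
    ∀ᶠ x in 𝓝 (0 : Fin (n + 1) → ℂ), T (x 0) ≠ 0 ∧ ∀ (m : ℕ), ∀ s ∈ C.A m,
      c.ψ x s = (T (x 0) ^ m)⁻¹ *
        c.ψ (sl fun i : Fin n => T (x 0) ^ P.d i.succ * x i.succ) s := by
  obtain ⟨ro, hro, hro1, hrod⟩ := exists_root_near_one P.d_pos
  set u := φ (P.X 0) with hu
  have hu0 : u ≠ 0 := P.ne
  let w : ℂ → ℂ := fun y => u / (u + y)
  have hw0 : w 0 = 1 := by simp [w, hu0]
  have hwd : DifferentiableAt ℂ w 0 := by
    refine DifferentiableAt.div (by fun_prop) (by fun_prop) ?_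
    simpa using hu0
  refine ⟨fun y => ro (w y), ?_, ?_, ?_⟩
  · have h1 : DifferentiableAt ℂ ro (w 0) := by rwa [hw0]
    exact h1.comp (0 : ℂ) hwd
  · show ro (w 0) = 1
    rw [hw0, hro1]
  have hTc : ContinuousAt (fun y => ro (w y)) 0 := by
    have h1 : ContinuousAt ro (w 0) := by
      rw [hw0]
      exact hrod.continuousAt
    exact ContinuousAt.comp (g := ro) (f := w) h1 hwd.continuousAt
  have hT1 : ro (w 0) = 1 := by rw [hw0, hro1]
  have hx0 : Tendsto (fun x : Fin (n + 1) → ℂ => x 0) (𝓝 0) (𝓝 0) := by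
    have : Continuous fun x : Fin (n + 1) → ℂ => x 0 := by fun_prop
    simpa using this.tendsto 0
  have hTt : Tendsto (fun x : Fin (n + 1) → ℂ => ro (w (x 0))) (𝓝 0) (𝓝 1) := by
    have h1 : Tendsto (fun y => ro (w y)) (𝓝 0) (𝓝 (ro (w 0))) := hTc
    rw [hT1] at h1
    exact h1.comp hx0
  -- the rescaled points converge to `φ`
  have hχ : Tendsto (fun x : Fin (n + 1) → ℂ => pact C.A (ro (w (x 0))) (c.ψ x)) (𝓝 0) (𝓝 φ) := by
    rw [Inst.tendsto_iff]
    intro f
    induction f using DirectSum.Decomposition.inductionOn C.A with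
    | zero => simp
    | homogeneous a =>
      rename_i i
      have h1 : ∀ x : Fin (n + 1) → ℂ, pact C.A (ro (w (x 0))) (c.ψ x) (a : C.R) =
          ro (w (x 0)) ^ i * c.ψ x (a : C.R) := fun x => pact_mem C.A _ _ a.2
      simp only [h1]
      have h2 : Tendsto (fun x => c.ψ x (a : C.R)) (𝓝 0) (𝓝 (φ (a : C.R))) :=
        Inst.tendsto_iff.1 c.tendsto_ψ (a : C.R)
      have h3 := (hTt.pow i).mul h2
      simpa using h3
    | add a b ha hb =>
      simp only [map_add]
      exact ha.add hb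
  have hwt : Tendsto (fun x : Fin (n + 1) → ℂ => w (x 0)) (𝓝 0) (𝓝 1) := by
    have h1 : Tendsto w (𝓝 0) (𝓝 (w 0)) := hwd.continuousAt
    rw [hw0] at h1
    exact h1.comp hx0
  have hne : ∀ᶠ x : Fin (n + 1) → ℂ in 𝓝 0, u + x 0 ≠ 0 := by
    have h1 : Tendsto (fun x : Fin (n + 1) → ℂ => u + x 0) (𝓝 0) (𝓝 (u + 0)) :=
      tendsto_const_nhds.add hx0
    rw [add_zero] at h1
    exact h1.eventually_ne hu0
  filter_upwards [hχ.eventually c.near, hTt.eventually_ne one_ne_zero, hwt.eventually hro, hne,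
    ball_mem_nhds (0 : Fin (n + 1) → ℂ) c.ρ_pos] with x hnear hT0 hroot hnex hxB
  refine ⟨hT0, ?_⟩
  set T := ro (w (x 0)) with hTdef
  have hcoord : c.X (pact C.A T (c.ψ x)) = sl fun i : Fin n => T ^ P.d i.succ * x i.succ := by
    funext j
    have h1 : c.X (pact C.A T (c.ψ x)) j = T ^ P.d j * c.ψ x (P.X j) - φ (P.X j) := by
      show pact C.A T (c.ψ x) (c.t j) = _
      rw [hc, map_sub, AlgHom.commutes, pact_mem C.A _ _ (P.mem j)]
      rfl
    rw [h1, ψ_X P c hc hxB]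
    refine Fin.cases ?_ (fun i => ?_) j
    · rw [sl_apply_zero, hroot, ← hu]
      show u / (u + x 0) * (u + x 0) - u = 0
      field_simp
      ring
    · rw [sl_apply_succ, P.zero i]
      ring
  intro m s hs
  have h2 := congrArg (fun χ : C.Pt => χ s) hnear.2
  simp only [hcoord] at h2
  rw [h2, pact_mem C.A _ _ hs, ← mul_assoc, inv_mul_cancel₀ (pow_ne_zero _ hT0), one_mul]

/-- Orders on the slice and orders along the orbit. -/
theorem isBigO_tl {m k : ℕ} {s : C.R} (hs : s ∈ C.A m)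
    (h : (fun y : Fin n → ℂ => c.ψ (sl y) s) =O[𝓝 0] fun y => ‖y‖ ^ k) :
    (fun x => c.ψ x s) =O[𝓝 0] fun x => ‖tl x‖ ^ k := by
  obtain ⟨T, hTd, hT0, hT⟩ := exists_slice P c hc
  have hx0 : Tendsto (fun x : Fin (n + 1) → ℂ => x 0) (𝓝 0) (𝓝 0) := by
    have : Continuous fun x : Fin (n + 1) → ℂ => x 0 := by fun_prop
    simpa using this.tendsto 0
  have hTt : Tendsto (fun x : Fin (n + 1) → ℂ => T (x 0)) (𝓝 0) (𝓝 1) := by
    have h1 : Tendsto T (𝓝 0) (𝓝 (T 0)) := hTd.continuousAt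
    rw [hT0] at h1
    exact h1.comp hx0
  -- the slice coordinates
  have hY : Tendsto (fun x : Fin (n + 1) → ℂ => fun i : Fin n => T (x 0) ^ P.d i.succ * x i.succ)
      (𝓝 0) (𝓝 0) := by
    rw [tendsto_pi_nhds]
    intro i
    have h1 : Tendsto (fun x : Fin (n + 1) → ℂ => x i.succ) (𝓝 0) (𝓝 0) := by
      have : Continuous fun x : Fin (n + 1) → ℂ => x i.succ := by fun_prop
      simpa using this.tendsto 0
    have h2 := (hTt.pow (P.d i.succ)).mul h1
    simpa using h2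
  have hYO : (fun x : Fin (n + 1) → ℂ => fun i : Fin n => T (x 0) ^ P.d i.succ * x i.succ)
      =O[𝓝 0] fun x => ‖tl x‖ := by
    rw [isBigO_pi]
    intro i
    have h1 : (fun x : Fin (n + 1) → ℂ => T (x 0) ^ P.d i.succ) =O[𝓝 0] fun _ => (1 : ℝ) :=
      (hTt.pow (P.d i.succ)).isBigO_one ℝ
    have h2 : (fun x : Fin (n + 1) → ℂ => x i.succ) =O[𝓝 0] fun x => ‖tl x‖ := by
      refine IsBigO.of_bound 1 (Eventually.of_forall fun x => ?_)
      rw [one_mul, norm_norm]
      exact norm_le_pi_norm (tl x) i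
    have h3 := h1.mul h2
    simpa using h3
  have h1 := h.comp_tendsto hY
  have h2 : (fun x : Fin (n + 1) → ℂ => ‖(fun i : Fin n => T (x 0) ^ P.d i.succ * x i.succ)‖ ^ k)
      =O[𝓝 0] fun x => ‖tl x‖ ^ k := (hYO.norm_left).pow k
  have h3 : (fun x : Fin (n + 1) → ℂ => c.ψ (sl fun i : Fin n => T (x 0) ^ P.d i.succ * x i.succ) s)
      =O[𝓝 0] fun x => ‖tl x‖ ^ k := h1.trans h2
  have h4 : (fun x : Fin (n + 1) → ℂ => (T (x 0) ^ m)⁻¹) =O[𝓝 0] fun _ => (1 : ℝ) := by
    have h5 := (hTt.pow m).inv₀ (by simp)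
    exact h5.isBigO_one ℝ
  have h5 := h4.mul h3
  simp only [one_mul] at h5
  refine h5.congr' ?_ (EventuallyEq.refl _ _)
  filter_upwards [hT] with x hx
  exact (hx.2 m s hs).symm

theorem isBigO_full {m k : ℕ} {s : C.R} (hs : s ∈ C.A m)
    (h : (fun y : Fin n → ℂ => c.ψ (sl y) s) =O[𝓝 0] fun y => ‖y‖ ^ k) :
    (fun x => c.ψ x s) =O[𝓝 0] fun x => ‖x‖ ^ k := by
  refine (isBigO_tl P c hc hs h).trans ?_
  refine IsBigO.of_bound 1 (Eventually.of_forall fun x => ?_)
  rw [one_mul, norm_pow, norm_pow, norm_norm, norm_norm]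
  exact pow_le_pow_left₀ (norm_nonneg _) (norm_tl_le x) k

omit hc in
theorem isBigO_slice {k : ℕ} {s : C.R} (h : (fun x => c.ψ x s) =O[𝓝 0] fun x => ‖x‖ ^ k) :
    (fun y : Fin n → ℂ => c.ψ (sl y) s) =O[𝓝 0] fun y => ‖y‖ ^ k := by
  have h1 := h.comp_tendsto (tendsto_sl (n := n))
  refine h1.congr_right fun y => ?_
  simp only [Function.comp_apply, norm_sl]

omit hc in
/-- Algebraic orders are analytic orders. -/
theorem isBigO_of_mem_pow {k : ℕ} : ∀ {s : C.R}, s ∈ pI φ ^ k →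
    (fun x => c.ψ x s) =O[𝓝 0] fun x => ‖x‖ ^ k := by
  induction k with
  | zero =>
    intro s _
    have h1 : ContinuousAt (fun x => c.ψ x s) 0 :=
      (c.holo s 0 (mem_ball_self c.ρ_pos)).continuousAt
    simpa using h1.isBigO_one ℝ
  | succ k ih =>
    intro s hs
    rw [pow_succ] at hs
    refine Submodule.mul_induction_on hs ?_ ?_
    · intro a ha b hb
      have h1 := ih ha
      have h2 : (fun x => c.ψ x b) =O[𝓝 0] fun x => ‖x‖ := by
        have h3 := (c.holo b 0 (mem_ball_self c.ρ_pos)).differentiableAt.isBigO_sub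
        rw [c.zero, mem_pI.1 hb] at h3
        simpa using h3.norm_right
      have h3 := h1.mul h2
      refine h3.congr (fun x => ?_) (fun x => ?_)
      · rw [map_mul]
      · rw [pow_succ]
    · intro a b ha hb
      refine (ha.add hb).congr_left fun x => ?_
      rw [map_add]

/-- Analytic orders are algebraic orders. -/
theorem mem_pow_of_isBigO {k : ℕ} {s : C.R}
    (h : (fun x => c.ψ x s) =O[𝓝 0] fun x => ‖x‖ ^ k) : s ∈ pI φ ^ k := by
  obtain ⟨F, hF, hF'⟩ := exists_taylor_alg P.params k s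
  have hev : ∀ᶠ x in 𝓝 (0 : Fin (n + 1) → ℂ), c.ψ x (MvPolynomial.aeval (cX φ P.X) F) =
      MvPolynomial.eval x F := by
    filter_upwards [ball_mem_nhds (0 : Fin (n + 1) → ℂ) c.ρ_pos] with x hx
    have h1 : (c.ψ x).comp (MvPolynomial.aeval (cX φ P.X)) = MvPolynomial.aeval x := by
      refine MvPolynomial.algHom_ext fun j => ?_
      rw [AlgHom.comp_apply, MvPolynomial.aeval_X, MvPolynomial.aeval_X, cX, ← hc]
      exact c.coord x hx j
    have h2 := congrArg (fun f => f F) h1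
    simpa [MvPolynomial.aeval_eq_eval] using h2
  have h1 : (fun x : Fin (n + 1) → ℂ => MvPolynomial.eval x F) =O[𝓝 0] fun x => ‖x‖ ^ k := by
    have h2 := h.sub (isBigO_of_mem_pow c hF')
    refine h2.congr' ?_ (EventuallyEq.refl _ _)
    filter_upwards [hev] with x hx
    rw [map_sub, hx]
    ring
  have hF0 : F = 0 := by
    ext d
    rw [MvPolynomial.coeff_zero]
    rcases lt_or_ge d.degree k with hd | hd
    · exact coeff_eq_zero_of_isBigO h1 d hd
    · exact hF d hd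
  rw [hF0, map_zero, sub_zero] at hF'
  exact hF'

end chart

end Vale.Agent.P271.Eq
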