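import Vale.Agent.P271.Eq.Final
import Vale.Agent.P271.H84.DerC
import Vale.Agent.P271.H995.Chain
import Vale.Agent.P271.Main.FreeInst

/-!
# P271, equality case: the field `eq`
-/

open Filter Topology Asymptotics Metric

namespace Vale.Agent.P271.Eq

open Vale.Agent.P271.Sch Vale.Agent.P271.H741 Vale.Agent.P271.Deg Vale.Agent.P271.Drop Vale.Agent.P271.Main

variable {n : ℕ} {C : GCone n} {φ : C.Pt}

/-- **The equality case.** -/
theorem gen_eq [∀ m, FiniteDimensional ℂ (C.A m)] (hGE : GlobEnd) (hn : 1 ≤ n) (hφ : GCone.NV φ)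
    {l : Filter ℕ} [l.NeBot] (hl : l ≤ atTop)
    (hN : Tendsto (fun m => (Module.finrank ℂ (C.A m) : ℝ) / (m : ℝ) ^ n) l
      (𝓝 (1 / (n.factorial : ℝ))))
    (hT : ∀ ε : ℝ, 0 < ε → ∀ᶠ m in l,
      ((∑ k ∈ Finset.range m, Module.finrank ℂ (ordA φ m (k + 1)) : ℕ) : ℝ) ≤
        ((n : ℝ) / (n + 1) + ε) * (m * Module.finrank ℂ (C.A m))) :
    GCone.Gen (n + 1) φ := by
  obtain ⟨P⟩ := exists_hparam hφ
  have hft := C.finiteType
  have hmax : (RingHom.ker φ).IsMaximal := RingHom.ker_isMaximal_of_surjective (φ : C.R →+* ℂ)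
    fun c => ⟨algebraMap ℂ C.R c, by simp⟩
  obtain ⟨hreg, hdim⟩ := C.regular (RingHom.ker φ) (by
    obtain ⟨d, hd, u, hu, h⟩ := hφ
    exact ⟨d, hd, u, hu, fun h' => h h'⟩)
  obtain ⟨c, hct⟩ := H879.exists_chart_of_parameters φ (RingHom.ker φ) (fun r => Iff.rfl) hdim
    (x := cX φ P.X) (φ_cX φ P.X) P.params
  have hc : ∀ j, c.t j = P.X j - algebraMap ℂ C.R (φ (P.X j)) := fun j => by
    rw [hct]
    rfl
  have hch : ChainRule P c := by
    intro D s x hx
    rw [H995.chain_chart hφ c D s hx]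
    refine Finset.sum_congr rfl fun j _ => ?_
    rw [hc, map_sub, Derivation.map_algebraMap, sub_zero]
  obtain ⟨M₁, θ, hdeg, hdet⟩ := H84.exists_der C hφ P.params
  have Δ : Ders P := ⟨M₁, θ, hdeg, hdet⟩
  have hn0 : (0 : ℝ) < n := by exact_mod_cast hn
  set t : ℝ := (2 * n + 1) / (2 * n + 2) with ht
  have ht0 : 0 < t := by positivity
  have ht1 : t < 1 := by
    rw [ht, div_lt_one (by positivity)]
    linarith
  have htn : (n : ℝ) / (n + 1) < t := by
    rw [ht, div_lt_div_iff₀ (by positivity) (by positivity)]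
    nlinarith
  obtain ⟨m, hm, S, hS, hcut⟩ := eq_sections hn P c hc hch Δ hl hN hT ht0 ht1
  exact gen_of_sections hGE hn hφ P c hc htn hm S hS hcut

theorem finrank_eq_hilb {m1 T : ℕ} :
    Module.finrank ℂ (C.A (m1 * T)) = hilb (VA C m1) (⊥ : Ideal C.R) T := by
  unfold hilb
  have hinj : Function.Injective (Ideal.Quotient.mkₐ ℂ (⊥ : Ideal C.R)).toLinearMap := by
    rw [injective_iff_map_eq_zero]
    intro a ha
    have : Ideal.Quotient.mk (⊥ : Ideal C.R) a = 0 := ha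
    rw [Ideal.Quotient.eq_zero_iff_mem, Ideal.mem_bot] at this
    exact this
  exact (LinearEquiv.finrank_eq (Submodule.equivMapOfInjective _ hinj _))

/-- **The field `eq` of `FreeBlocks`.** -/
theorem eqStat [∀ m, FiniteDimensional ℂ (C.A m)] (hGE : GlobEnd) (hn : 1 ≤ n) (z : NVPt C)
    {m1 ell : ℕ} (hm1 : 1 ≤ m1)
    (hTS : TwoSided n (ell * m1 ^ n) (hilb (VA C m1) (⊥ : Ideal C.R))) : EqStat z m1 ell := by
  intro hell hos
  subst hell
  have hm0 : (0 : ℝ) < m1 := by exact_mod_cast hm1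
  have hl : Tendsto (fun T : ℕ => m1 * T) atTop atTop :=
    tendsto_id.const_mul_atTop' (by omega)
  refine gen_eq hGE hn z.2 (l := Filter.map (fun T : ℕ => m1 * T) atTop) hl ?_ ?_
  · rw [tendsto_map'_iff]
    have h1 := hTS.tendsto
    have h2 := h1.const_mul (((m1 : ℝ) ^ n)⁻¹)
    have h3 : ((m1 : ℝ) ^ n)⁻¹ * (((1 * m1 ^ n : ℕ) : ℝ) / (n.factorial : ℝ)) =
        1 / (n.factorial : ℝ) := by
      have : (m1 : ℝ) ^ n ≠ 0 := pow_ne_zero _ hm0.ne'
      push_cast
      field_simp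
    rw [h3] at h2
    refine h2.congr fun T => ?_
    rw [Function.comp_apply, finrank_eq_hilb]
    push_cast
    rw [mul_pow]
    rw [← div_eq_inv_mul, div_div, mul_comm ((T : ℝ) ^ n)]
  · intro ε hε
    rw [Filter.eventually_map]
    obtain ⟨T₀, hT₀⟩ := hos ε hε
    filter_upwards [eventually_ge_atTop T₀] with T hT
    have h1 := hT₀ T hT
    refine (Uni.sum_ordA_le (φ := z.1) (m1 * T) (m1 * T)).trans ?_
    refine h1.trans (le_of_eq ?_)
    push_cast
    rfl

end Vale.Agent.P271.Eq
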